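import Vale.Agent.P095.Base
import Vale.Agent.P101.Common

/-!
# P095: powers of averages of sequences, star commutation
-/

noncomputable section

namespace Vale.Agent.P095

open Filter Topology BoundedContinuousFunction Vale.Agent.P101 Finset

universe u

section Count

theorem card_not_injective_le (r n : ℕ) :
    ((univ : Finset (Fin r → Fin n)).filter fun f => ¬Function.Injective f).card ≤
      r * r * n ^ (r - 1) := by
  classical
  have hsub : ((univ : Finset (Fin r → Fin n)).filter fun f => ¬Function.Injective f) ⊆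
      ((univ : Finset (Fin r × Fin r)).filter fun p => p.1 ≠ p.2).biUnion
        fun p => univ.filter fun f => f p.1 = f p.2 := by
    intro f hf
    obtain ⟨i, j, hij, hne⟩ := Function.not_injective_iff.1 (mem_filter.1 hf).2
    exact mem_biUnion.2 ⟨(i, j), by simp [hne], by simp [hij]⟩
  have hone : ∀ p : Fin r × Fin r, p.1 ≠ p.2 →
      ((univ : Finset (Fin r → Fin n)).filter fun f => f p.1 = f p.2).card ≤ n ^ (r - 1) := by
    intro p hp
    have h := Finset.card_le_card_of_injOn
      (s := (univ : Finset (Fin r → Fin n)).filter fun f => f p.1 = f p.2)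
      (t := (univ : Finset ({k : Fin r // k ≠ p.2} → Fin n))) (fun f k => f k.1)
      (fun f _ => mem_univ _) (fun f hf g hg hfg => funext fun k => by
        have hf' : f p.1 = f p.2 := by simpa using hf
        have hg' : g p.1 = g p.2 := by simpa using hg
        by_cases hk : k = p.2
        · rw [hk, ← hf', ← hg']; exact congrFun hfg ⟨p.1, hp⟩
        · exact congrFun hfg ⟨k, hk⟩)
    simpa [Fintype.card_subtype_compl] using h
  refine (card_le_card hsub).trans (card_biUnion_le.trans ?_)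
  calc ∑ p ∈ (univ : Finset (Fin r × Fin r)).filter (fun p => p.1 ≠ p.2),
        ((univ : Finset (Fin r → Fin n)).filter fun f => f p.1 = f p.2).card
      ≤ ∑ p ∈ (univ : Finset (Fin r × Fin r)).filter (fun p => p.1 ≠ p.2), n ^ (r - 1) :=
        sum_le_sum fun p hp => hone p (mem_filter.1 hp).2
    _ ≤ ∑ _p : Fin r × Fin r, n ^ (r - 1) :=
        sum_le_sum_of_subset (filter_subset _ _)
    _ = r * r * n ^ (r - 1) := by simp

/-- An average over tuples that is constant on injective tuples tends to that constant. -/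
theorem tendsto_tupleAverage {r : ℕ} (hr : 1 ≤ r) (F : ∀ n : ℕ, (Fin r → Fin n) → ℂ) {C : ℝ}
    (hC : ∀ n f, ‖F n f‖ ≤ C) {c : ℂ} (hF : ∀ n f, Function.Injective f → F n f = c) :
    Tendsto (fun n : ℕ => (n : ℂ)⁻¹ ^ r * ∑ f, F n f) atTop (𝓝 c) := by
  classical
  rw [← tendsto_sub_nhds_zero_iff]
  refine squeeze_zero_norm' ?_ (Tendsto.div_atTop (a := (C + ‖c‖) * ((r * r : ℕ) : ℝ)) tendsto_const_nhds tendsto_natCast_atTop_atTop)
  filter_upwards [eventually_ge_atTop 1] with n hn
  have hn0 : (n : ℂ) ≠ 0 := Nat.cast_ne_zero.2 (by omega)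
  have e : (n : ℂ)⁻¹ ^ r * ∑ f, F n f - c = (n : ℂ)⁻¹ ^ r * ∑ f, (F n f - c) := by
    rw [sum_sub_distrib, mul_sub, sum_const, card_univ, Fintype.card_fun, Fintype.card_fin,
      Fintype.card_fin, nsmul_eq_mul, Nat.cast_pow, ← mul_assoc, ← mul_pow, inv_mul_cancel₀ hn0,
      one_pow, one_mul]
  rw [e, norm_mul, norm_pow, norm_inv, Complex.norm_natCast,
    ← sum_filter_of_ne (p := fun f => ¬Function.Injective f) fun f _ hne hinj =>
      hne (by rw [hF n f hinj, sub_self])]
  have h1 : ‖∑ f ∈ univ.filter (fun f : Fin r → Fin n => ¬Function.Injective f), (F n f - c)‖ ≤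
      ((r * r * n ^ (r - 1) : ℕ) : ℝ) * (C + ‖c‖) := by
    refine (norm_sum_le _ _).trans ((sum_le_sum fun f _ =>
      (norm_sub_le _ _).trans (add_le_add_left (hC n f) _)).trans ?_)
    rw [sum_const, nsmul_eq_mul]
    rcases (univ.filter fun f : Fin r → Fin n => ¬Function.Injective f).eq_empty_or_nonempty
      with h | ⟨f, hf⟩
    · rw [h, card_empty, Nat.cast_zero, zero_mul]
      by_cases hne : ∃ f : Fin r → Fin n, True
      · obtain ⟨f, -⟩ := hne
        have := (norm_nonneg _).trans (hC n f)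
        positivity
      · exact absurd ⟨fun _ => ⟨0, hn⟩, trivial⟩ hne
    · have := (norm_nonneg _).trans (hC n f)
      exact mul_le_mul_of_nonneg_right (by exact_mod_cast card_not_injective_le r n) (by positivity)
  refine (mul_le_mul_of_nonneg_left h1 (by positivity)).trans (le_of_eq ?_)
  obtain ⟨r, rfl⟩ := Nat.exists_eq_add_of_le hr
  have : (n : ℝ) ≠ 0 := Nat.cast_ne_zero.2 (by omega)
  rw [Nat.add_sub_cancel_left]
  push_cast
  rw [inv_pow, pow_add, pow_one]
  field_simp

end Count

variable {B : Type u} [CStarAlgebra B]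

theorem sum_pow_eq {ι : Type*} [Fintype ι] (u : ι → B) (r : ℕ) :
    (∑ s, u s) ^ r = ∑ f : Fin r → ι, (List.ofFn fun i => u (f i)).prod := by
  induction r with
  | zero => simp
  | succ r ih =>
    rw [pow_succ', ih, Fintype.sum_mul_sum, ← Fintype.sum_prod_type',
      ← (Fin.consEquiv fun _ : Fin (r + 1) => ι).sum_comp]
    simp [List.ofFn_succ]

theorem norm_listProd_ofFn_le {r : ℕ} (u : Fin r → B) {C : ℝ} (h : ∀ i, ‖u i‖ ≤ C) :
    ‖(List.ofFn u).prod‖ ≤ max 1 ‖(1 : B)‖ * C ^ r := by
  induction r with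
  | zero => simp
  | succ r ih =>
    rw [List.ofFn_succ, List.prod_cons, pow_succ']
    have hC : 0 ≤ C := (norm_nonneg _).trans (h 0)
    calc ‖u 0 * (List.ofFn fun i => u i.succ).prod‖
        ≤ ‖u 0‖ * ‖(List.ofFn fun i => u i.succ).prod‖ := norm_mul_le _ _
      _ ≤ C * (max 1 ‖(1 : B)‖ * C ^ r) :=
        mul_le_mul (h 0) (ih _ fun i => h i.succ) (norm_nonneg _) hC
      _ = _ := by ring

theorem StarCommute.sub_left {a b c : B} (ha : StarCommute a c) (hb : StarCommute b c) :
    StarCommute (a - b) c :=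
  ⟨ha.1.sub_left hb.1, ha.2.sub_left hb.2⟩

theorem StarCommute.sub_right {a b c : B} (hb : StarCommute a b) (hc : StarCommute a c) :
    StarCommute a (b - c) :=
  ⟨hb.1.sub_right hc.1, by rw [star_sub]; exact hb.2.sub_right hc.2⟩

theorem star_ofFn_prod {r : ℕ} (v : Fin r → B) :
    star (List.ofFn v).prod = (List.ofFn fun i => star (v i)).reverse.prod := by
  induction r with
  | zero => simp
  | succ r ih =>
    simp only [List.ofFn_succ, List.prod_cons, List.reverse_cons, List.prod_append, List.prod_nil,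
      mul_one, star_mul]
    rw [ih fun i => v i.succ]

/-- A product of star products of pairwise *-commuting factors. -/
theorem star_prod_mul_prod {r : ℕ} (u w : Fin r → B)
    (h : ∀ i j, i ≠ j → StarCommute (u i) (u j) ∧ StarCommute (w i) (u j)) :
    star (List.ofFn u).prod * (List.ofFn w).prod =
      (List.ofFn fun i => star (u i) * w i).prod := by
  induction r with
  | zero => simp
  | succ r ih =>
    rw [List.ofFn_succ, List.ofFn_succ, List.ofFn_succ, List.prod_cons, List.prod_cons,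
      List.prod_cons, ← ih (fun i => u i.succ) (fun i => w i.succ)
        fun i j hij => h i.succ j.succ (by simpa using hij)]
    have hc : Commute (star (u 0) * w 0) (List.ofFn fun i => star (u i.succ)).reverse.prod := by
      refine Commute.list_prod_right _ _ fun x hx => ?_
      rw [List.mem_reverse, List.mem_ofFn] at hx
      obtain ⟨i, rfl⟩ := hx
      have h' := h 0 i.succ (Fin.succ_ne_zero i).symm
      exact (h'.1.1.star_star).mul_left h'.2.2
    have e := star_ofFn_prod fun i => u i.succ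
    rw [← e] at hc
    rw [star_mul, mul_assoc, ← mul_assoc (star (u 0)), ← mul_assoc, ← hc.eq, mul_assoc,
      mul_assoc]

/-- The averages of the first `n` terms. -/
def avgSeq (f : ℕ → B) (C : ℝ) (h : ∀ s, ‖f s‖ ≤ C) : ℕ →ᵇ B :=
  bseq (fun n => (n : ℂ)⁻¹ • ∑ s : Fin n, f s) C fun n => by
    rcases Nat.eq_zero_or_pos n with rfl | hn
    · simpa using (norm_nonneg _).trans (h 0)
    · rw [norm_smul, norm_inv, Complex.norm_natCast, inv_mul_le_iff₀ (by exact_mod_cast hn)]
      calc ‖∑ s : Fin n, f s‖ ≤ ∑ s : Fin n, ‖f s‖ := norm_sum_le _ _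
        _ ≤ ∑ _s : Fin n, C := sum_le_sum fun s _ => h s
        _ = (n : ℝ) * C := by simp

theorem avgSeq_pow (f : ℕ → B) (C : ℝ) (h : ∀ s, ‖f s‖ ≤ C) (r n : ℕ) :
    (avgSeq f C h ^ r) n =
      (n : ℂ)⁻¹ ^ r • ∑ g : Fin r → Fin n, (List.ofFn fun i => f (g i)).prod := by
  rw [BoundedContinuousFunction.coe_pow, Pi.pow_apply, avgSeq, bseq_apply, smul_pow, sum_pow_eq]

/-- Averages of two families commuting off the diagonal almost commute. -/
theorem norm_avg_commutator_le {n : ℕ} (hn : 1 ≤ n) (f g : Fin n → B) {C C' : ℝ}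
    (hf : ∀ s, ‖f s‖ ≤ C) (hg : ∀ s, ‖g s‖ ≤ C')
    (h : ∀ s t, s ≠ t → Commute (f s) (g t)) :
    ‖((n : ℂ)⁻¹ • ∑ s, f s) * ((n : ℂ)⁻¹ • ∑ s, g s) -
      ((n : ℂ)⁻¹ • ∑ s, g s) * ((n : ℂ)⁻¹ • ∑ s, f s)‖ ≤ 2 * C * C' / n := by
  simp only [smul_mul_smul_comm, Finset.sum_mul, Finset.mul_sum]
  rw [Finset.sum_comm (f := fun x i : Fin n => f i * g x), ← smul_sub,
    ← Finset.sum_sub_distrib]
  have hC : 0 ≤ C := (norm_nonneg _).trans (hf ⟨0, hn⟩)
  have hC' : 0 ≤ C' := (norm_nonneg _).trans (hg ⟨0, hn⟩)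
  have key : ∀ s : Fin n, ‖∑ t : Fin n, f s * g t - ∑ t : Fin n, g t * f s‖ ≤ 2 * C * C' := by
    intro s
    rw [← Finset.sum_sub_distrib, Finset.sum_eq_single s
      (fun t _ hts => sub_eq_zero.2 (h s t (Ne.symm hts)).eq)
      (fun hs => absurd (mem_univ s) hs)]
    calc ‖f s * g s - g s * f s‖ ≤ ‖f s‖ * ‖g s‖ + ‖g s‖ * ‖f s‖ :=
          (norm_sub_le _ _).trans (add_le_add (norm_mul_le _ _) (norm_mul_le _ _))
      _ ≤ C * C' + C' * C := add_le_add (mul_le_mul (hf _) (hg _) (norm_nonneg _) hC)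
          (mul_le_mul (hg _) (hf _) (norm_nonneg _) hC')
      _ = 2 * C * C' := by ring
  rw [norm_smul, norm_mul, norm_inv, Complex.norm_natCast]
  refine (mul_le_mul_of_nonneg_left ((norm_sum_le _ _).trans (sum_le_sum fun s _ => key s))
    (by positivity)).trans (le_of_eq ?_)
  have : (n : ℝ) ≠ 0 := Nat.cast_ne_zero.2 (by omega)
  simp only [sum_const, card_univ, Fintype.card_fin, nsmul_eq_mul]
  field_simp

/-- Averages of pairwise commuting families commute modulo null sequences. -/
theorem avgSeq_commute (f g : ℕ → B) (C C' : ℝ) (hf : ∀ s, ‖f s‖ ≤ C) (hg : ∀ s, ‖g s‖ ≤ C')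
    (h : ∀ s t, s ≠ t → Commute (f s) (g t)) :
    Commute (seqMk B atTop (avgSeq f C hf)) (seqMk B atTop (avgSeq g C' hg)) := by
  show _ * _ = _ * _
  rw [← map_mul, ← map_mul, seqMk_eq_iff]
  refine squeeze_zero' (Eventually.of_forall fun n => norm_nonneg _) ?_
    (Tendsto.div_atTop (a := 2 * C * C') tendsto_const_nhds tendsto_natCast_atTop_atTop)
  filter_upwards [eventually_ge_atTop 1] with n hn
  exact norm_avg_commutator_le hn (fun s => f s) (fun s => g s) (fun s => hf s) (fun s => hg s)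
    fun s t hst => h s t (Fin.val_ne_of_ne hst)

end Vale.Agent.P095
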