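import Vale.Agent.P101.Seq

/-!
# P095: actions on bounded sequences modulo null sequences, invariant states
-/

noncomputable section

namespace Vale.Agent.P095

open Filter Topology BoundedContinuousFunction Vale.Agent.P101

universe u v

section
variable {A A' : Type u} [CStarAlgebra A] [CStarAlgebra A'] {F : Filter ℕ}

/-- A bounded sequence from a norm bound. -/
def bseq (f : ℕ → A) (C : ℝ) (h : ∀ n, ‖f n‖ ≤ C) : ℕ →ᵇ A :=
  .ofNormedAddCommGroup f continuous_of_discreteTopology C h

@[simp] theorem bseq_apply (f : ℕ → A) (C : ℝ) (h : ∀ n, ‖f n‖ ≤ C) (n : ℕ) :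
    bseq f C h n = f n := rfl

/-- A star homomorphism applied entrywise. -/
def seqComp (e : A →⋆ₐ[ℂ] A') : (ℕ →ᵇ A) →⋆ₐ[ℂ] (ℕ →ᵇ A') where
  toFun f := bseq (fun n => e (f n)) ‖f‖ fun n =>
    (NonUnitalStarAlgHom.norm_apply_le e (f n)).trans (f.norm_coe_le_norm n)
  map_one' := by ext n; simp
  map_mul' f g := by ext n; simp
  map_zero' := by ext n; simp
  map_add' f g := by ext n; simp
  commutes' c := by ext n; simp [Algebra.algebraMap_eq_smul_one]
  map_star' f := by ext n; simp [map_star]

@[simp] theorem seqComp_apply (e : A →⋆ₐ[ℂ] A') (f : ℕ →ᵇ A) (n : ℕ) :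
    seqComp e f n = e (f n) := rfl

theorem seqComp_null (e : A →⋆ₐ[ℂ] A') {f : ℕ →ᵇ A} (hf : seqMk A F f = 0) :
    seqMk A' F (seqComp e f) = 0 := by
  rw [seqMk_eq_zero] at hf ⊢
  exact squeeze_zero (fun n => norm_nonneg _) (fun n => NonUnitalStarAlgHom.norm_apply_le e (f n)) hf

variable (F) in
/-- A star homomorphism induced on sequences modulo null sequences. -/
def seqAct (e : A →⋆ₐ[ℂ] A') : SeqQuot A F →⋆ₐ[ℂ] SeqQuot A' F where
  toAlgHom := Ideal.Quotient.liftₐ (nullSeq A F)
    ((seqMk A' F).toAlgHom.comp (seqComp e).toAlgHom) fun _ hf =>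
      seqComp_null e (seqMk_eq_zero.2 hf)
  map_star' x := by
    obtain ⟨f, rfl⟩ := seqMk_surjective x
    show seqMk A' F (seqComp e (star f)) = star (seqMk A' F (seqComp e f))
    simp [map_star]

@[simp] theorem seqAct_mk (e : A →⋆ₐ[ℂ] A') (f : ℕ →ᵇ A) :
    seqAct F e (seqMk A F f) = seqMk A' F (seqComp e f) := rfl

theorem seqAct_id : seqAct (A := A) F (StarAlgHom.id ℂ A) = StarAlgHom.id ℂ _ := by
  ext x
  obtain ⟨f, rfl⟩ := seqMk_surjective x
  rfl

theorem seqAct_comp {A'' : Type u} [CStarAlgebra A''] (e : A →⋆ₐ[ℂ] A') (e' : A' →⋆ₐ[ℂ] A'') :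
    seqAct F (e'.comp e) = (seqAct F e').comp (seqAct F e) := by
  ext x
  obtain ⟨f, rfl⟩ := seqMk_surjective x
  rfl

end

section
variable {G : Type v} [Group G] {B : Type u} [CStarAlgebra B]

/-- The fixed algebra of a family of star endomorphisms. -/
def fixSub (β : G → B →⋆ₐ[ℂ] B) : StarSubalgebra ℂ B :=
  ⨅ g, StarAlgHom.equalizer (β g) (StarAlgHom.id ℂ B)

omit [Group G] in
theorem mem_fixSub {β : G → B →⋆ₐ[ℂ] B} {b : B} : b ∈ fixSub β ↔ ∀ g, β g b = b := by
  simp [fixSub, StarSubalgebra.mem_iInf]

instance fixSub.isClosed (β : G → B →⋆ₐ[ℂ] B) : IsClosed (fixSub β : Set B) := by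
  have : (fixSub β : Set B) = ⋂ g, {b | β g b = b} := by
    ext b; simp [mem_fixSub]
  rw [this]
  exact isClosed_iInter fun g => isClosed_eq
    (AddMonoidHomClass.continuous_of_bound (β g) 1 fun b => by
      simpa only [one_mul] using NonUnitalStarAlgHom.norm_apply_le (β g) b) continuous_id

instance fixSub.instCStarAlgebra (β : G → B →⋆ₐ[ℂ] B) : CStarAlgebra (fixSub β) :=
  StarSubalgebra.cstarAlgebra _

end

/-- An action of a finite group together with an invariant state that is multiplicative on
`star a * a` for invariant `a`. -/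
structure Setup (G : Type v) [Group G] [Fintype G] (B : Type u) [CStarAlgebra B] where
  /-- The action. -/
  act : G → B →⋆ₐ[ℂ] B
  act_one : ∀ b, act 1 b = b
  act_mul : ∀ g h b, act (g * h) b = act g (act h b)
  /-- The state. -/
  state : B →ₗ[ℂ] ℂ
  state_one : state 1 = 1
  state_nonneg : ∀ b, ∃ r : ℝ, 0 ≤ r ∧ state (star b * b) = (r : ℂ)
  state_act : ∀ g b, state (act g b) = state b
  state_sq : ∀ b, (∀ g, act g b = b) → state (star b * b) = star (state b) * state b

namespace Setup

variable {G : Type v} [Group G] [Fintype G] {B : Type u} [CStarAlgebra B] (S : Setup G B)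

/-- The sum over the orbit. -/
def orbitSum (b : B) : B := ∑ g, S.act g b

theorem act_orbitSum (h : G) (b : B) : S.act h (S.orbitSum b) = S.orbitSum b := by
  simp only [orbitSum, map_sum, ← S.act_mul]
  exact Fintype.sum_bijective (fun g => h * g) (Group.mulLeft_bijective h) _ _ fun g => rfl

theorem re_nonneg (b : B) : 0 ≤ (S.state (star b * b)).re := by
  obtain ⟨r, hr, e⟩ := S.state_nonneg b
  simpa [e] using hr

theorem im_zero (b : B) : (S.state (star b * b)).im = 0 := by
  obtain ⟨r, -, e⟩ := S.state_nonneg b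
  simp [e]

theorem state_star (a : B) : S.state (star a) = star (S.state a) := by
  have h1 := S.im_zero (a + 1)
  have h2 := S.im_zero (Complex.I • a + 1)
  have h0 := S.im_zero a
  simp only [star_add, star_one, star_smul, add_mul, mul_add, one_mul, mul_one, smul_mul_assoc,
    mul_smul_comm, map_add, map_smul, S.state_one, smul_eq_mul, Complex.add_im,
    Complex.mul_im, Complex.star_def, Complex.conj_re, Complex.conj_im, Complex.I_re,
    Complex.I_im, Complex.mul_re, Complex.one_im] at h1 h2
  apply Complex.ext <;> simp only [Complex.star_def, Complex.conj_re, Complex.conj_im] <;> linarith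

/-- Vanishing on `star a * a` propagates to left multiples. -/
theorem state_mul_right_null {a : B} (ha : S.state (star a * a) = 0) (b : B) :
    S.state (b * a) = 0 := by
  by_contra hne
  set z := S.state (b * a) with hz
  obtain ⟨r, hr, e⟩ := S.state_nonneg (star b)
  rw [star_star] at e
  set t : ℝ := (r + 1) / (Complex.normSq z) with ht
  have hn : 0 < Complex.normSq z := Complex.normSq_pos.2 hne
  have hexp : S.state (star ((-(t : ℂ) * star z) • a + star b) * ((-(t : ℂ) * star z) • a + star b))
      = (r : ℂ) - 2 * (t : ℂ) * (Complex.normSq z : ℂ) := by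
    have h1 : S.state (star a * star b) = star z := by
      rw [← star_mul, S.state_star, hz]
    simp only [star_add, star_smul, star_star, add_mul, mul_add, smul_mul_assoc, mul_smul_comm,
      map_add, map_smul, ha, e, h1, smul_eq_mul, mul_zero, zero_add, ← hz]
    rw [Complex.normSq_eq_conj_mul_self]
    simp only [star_mul', star_neg, Complex.star_def, Complex.conj_conj, Complex.conj_ofReal]
    ring
  have := S.re_nonneg ((-(t : ℂ) * star z) • a + star b)
  rw [hexp] at this
  simp at this
  have h2 : t * Complex.normSq z = r + 1 := by rw [ht, div_mul_cancel₀ _ hn.ne']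
  nlinarith

theorem norm_state_sq_le (a : B) : ‖S.state a‖ ^ 2 ≤ (S.state (star a * a)).re := by
  have := S.re_nonneg (a - S.state a • 1)
  simp only [star_sub, star_smul, star_one, sub_mul, mul_sub, smul_mul_assoc, mul_smul_comm,
    mul_one, one_mul, map_sub, map_smul, S.state_one, S.state_star, smul_eq_mul,
    Complex.sub_re, Complex.mul_re, Complex.star_def, Complex.conj_re, Complex.conj_im] at this
  rw [Complex.sq_norm, Complex.normSq_apply]
  nlinarith

variable [PartialOrder B] [StarOrderedRing B]

theorem re_state_nonneg {b : B} (hb : 0 ≤ b) : 0 ≤ (S.state b).re := by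
  obtain ⟨c, rfl⟩ := CStarAlgebra.nonneg_iff_eq_star_mul_self.1 hb
  exact S.re_nonneg c

theorem re_state_mono {a b : B} (h : a ≤ b) : (S.state a).re ≤ (S.state b).re := by
  have := S.re_state_nonneg (sub_nonneg.2 h)
  rw [map_sub, Complex.sub_re] at this
  linarith

omit [PartialOrder B] [StarOrderedRing B] in
theorem re_state_algebraMap (r : ℝ) : (S.state (algebraMap ℝ B r)).re = r := by
  rw [Algebra.algebraMap_eq_smul_one, LinearMap.map_smul_of_tower, S.state_one]
  simp

end Setup

namespace Setup

variable {G : Type v} [Group G] [Fintype G] {B : Type u} [CStarAlgebra B] (S : Setup G B)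

theorem norm_state_le (a : B) : ‖S.state a‖ ≤ ‖a‖ := by
  let _ : PartialOrder B := CStarAlgebra.spectralOrder B
  let _ : StarOrderedRing B := CStarAlgebra.spectralOrderedRing B
  have h1 := S.re_state_mono ((IsSelfAdjoint.star_mul_self a).le_algebraMap_norm_self)
  rw [S.re_state_algebraMap, CStarRing.norm_star_mul_self] at h1
  have h2 := S.norm_state_sq_le a
  nlinarith [norm_nonneg a, norm_nonneg (S.state a)]

/-- The limit along the free ultrafilter. -/
def ulim (z : ℕ → ℂ) : ℂ := limUnder (hyperfilter ℕ : Filter ℕ) z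

theorem tendsto_ulim {z : ℕ → ℂ} {C : ℝ} (h : ∀ n, ‖z n‖ ≤ C) :
    Tendsto z (hyperfilter ℕ) (𝓝 (ulim z)) := by
  refine tendsto_nhds_limUnder ?_
  obtain ⟨c, -, hc⟩ := (isCompact_closedBall (0 : ℂ) C).ultrafilter_le_nhds
    ((hyperfilter ℕ).map z) (le_principal_iff.2 (Filter.mem_map.2 (Eventually.of_forall fun n => by
      simpa using h n)))
  exact ⟨c, hc⟩

/-- The limit state on a sequence, read on a representative. -/
def limFun (x : SeqQuot B atTop) : ℂ :=
  ulim fun n => S.state ((Function.surjInv seqMk_surjective x : ℕ →ᵇ B) n)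

theorem tendsto_limFun (f : ℕ →ᵇ B) :
    Tendsto (fun n => S.state (f n)) (hyperfilter ℕ) (𝓝 (S.limFun (seqMk B atTop f))) := by
  set g : ℕ →ᵇ B := Function.surjInv seqMk_surjective (seqMk B atTop f)
  have hg : Tendsto (fun n => ‖f n - g n‖) atTop (𝓝 0) :=
    seqMk_eq_iff.1 (Function.surjInv_eq seqMk_surjective (seqMk B atTop f)).symm
  have h0 : Tendsto (fun n => S.state (f n - g n)) (hyperfilter ℕ) (𝓝 0) :=
    squeeze_zero_norm (fun n => S.norm_state_le _) (hg.mono_left Nat.hyperfilter_le_atTop)
  have h1 : Tendsto (fun n => S.state (g n)) (hyperfilter ℕ) (𝓝 (S.limFun (seqMk B atTop f))) :=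
    tendsto_ulim fun n => (S.norm_state_le _).trans (g.norm_coe_le_norm n)
  simpa using h0.add h1

/-- The action and the limit state on bounded sequences modulo null sequences. -/
def limit : Setup G (SeqQuot B (atTop : Filter ℕ)) where
  act g := seqAct atTop (S.act g)
  act_one x := by
    obtain ⟨f, rfl⟩ := seqMk_surjective x
    exact congrArg (seqMk B atTop) (DFunLike.ext _ _ fun n => S.act_one _)
  act_mul g h x := by
    obtain ⟨f, rfl⟩ := seqMk_surjective x
    exact congrArg (seqMk B atTop) (DFunLike.ext _ _ fun n => S.act_mul g h _)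
  state :=
    { toFun := S.limFun
      map_add' := fun x y => by
        obtain ⟨f, rfl⟩ := seqMk_surjective x
        obtain ⟨g, rfl⟩ := seqMk_surjective y
        rw [← map_add]
        refine tendsto_nhds_unique (S.tendsto_limFun _) ?_
        simpa using (S.tendsto_limFun f).add (S.tendsto_limFun g)
      map_smul' := fun c x => by
        obtain ⟨f, rfl⟩ := seqMk_surjective x
        rw [← map_smul]
        refine tendsto_nhds_unique (S.tendsto_limFun _) ?_
        simpa using (S.tendsto_limFun f).const_mul c }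
  state_one := by
    show S.limFun 1 = 1
    rw [← map_one (seqMk B atTop)]
    refine tendsto_nhds_unique (S.tendsto_limFun _) ?_
    simp [S.state_one]
  state_nonneg x := by
    obtain ⟨f, rfl⟩ := seqMk_surjective x
    have h := S.tendsto_limFun (star f * f)
    rw [map_mul, map_star] at h
    refine ⟨_, ge_of_tendsto (Complex.continuous_re.continuousAt.tendsto.comp h)
      (Eventually.of_forall fun n => S.re_nonneg (f n)), Complex.ext rfl ?_⟩
    refine tendsto_nhds_unique (Complex.continuous_im.continuousAt.tendsto.comp h) ?_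
    simpa [Function.comp_def, S.im_zero] using tendsto_const_nhds
  state_act g x := by
    obtain ⟨f, rfl⟩ := seqMk_surjective x
    show S.limFun (seqMk B atTop (seqComp (S.act g) f)) = S.limFun (seqMk B atTop f)
    refine tendsto_nhds_unique (S.tendsto_limFun _) ?_
    simpa only [seqComp_apply, S.state_act] using S.tendsto_limFun f
  state_sq x hx := by
    obtain ⟨f, rfl⟩ := seqMk_surjective x
    -- an exactly invariant representative
    set c : ℂ := (Fintype.card G : ℂ)⁻¹ with hc
    set e : ℕ →ᵇ B := c • ∑ g, seqComp (S.act g) f with he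
    have hinv : ∀ g n, S.act g (e n) = e n := by
      intro g n
      have : e n = c • S.orbitSum (f n) := by
        simp [he, orbitSum, BoundedContinuousFunction.coe_sum, Finset.sum_apply]
      rw [this, map_smul, S.act_orbitSum]
    have hmk : seqMk B atTop e = seqMk B atTop f := by
      have : ∀ g, seqMk B atTop (seqComp (S.act g) f) = seqMk B atTop f := hx
      rw [he, map_smul, map_sum, Finset.sum_congr rfl fun g _ => this g, Finset.sum_const,
        Finset.card_univ, ← Nat.cast_smul_eq_nsmul ℂ, smul_smul, hc,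
        inv_mul_cancel₀ (Nat.cast_ne_zero.2 Fintype.card_ne_zero), one_smul]
    rw [← hmk, ← map_star, ← map_mul]
    refine tendsto_nhds_unique (S.tendsto_limFun _) ?_
    have h := S.tendsto_limFun e
    simpa [Function.comp_def, fun n => S.state_sq (e n) fun g => hinv g n] using
      (continuous_star.continuousAt.tendsto.comp h).mul h

@[simp] theorem limit_act_mk (g : G) (f : ℕ →ᵇ B) :
    S.limit.act g (seqMk B atTop f) = seqMk B atTop (seqComp (S.act g) f) := rfl

theorem tendsto_limit_state (f : ℕ →ᵇ B) :
    Tendsto (fun n => S.state (f n)) (hyperfilter ℕ) (𝓝 (S.limit.state (seqMk B atTop f))) :=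
  S.tendsto_limFun f

/-- Real parts of the state pass to the limit from eventual bounds. -/
theorem le_re_limit_state {f : ℕ →ᵇ B} {r : ℝ} (h : ∀ᶠ n in atTop, r ≤ (S.state (f n)).re) :
    r ≤ (S.limit.state (seqMk B atTop f)).re :=
  ge_of_tendsto (Complex.continuous_re.continuousAt.tendsto.comp (S.tendsto_limit_state f))
    (h.filter_mono Nat.hyperfilter_le_atTop)

theorem limit_state_eq {f : ℕ →ᵇ B} {c : ℂ}
    (h : Tendsto (fun n => S.state (f n)) (hyperfilter ℕ) (𝓝 c)) :
    S.limit.state (seqMk B atTop f) = c :=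
  tendsto_nhds_unique (S.tendsto_limit_state f) h

end Setup

end Vale.Agent.P095
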