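import Mathlib

/-!
# P095: vanishing power sums force commuting normal elements to vanish in a state
-/

noncomputable section

namespace Vale.Agent.P095

open Finset

/-- Vanishing power sums up to the cardinality force all entries to vanish. -/
theorem eq_zero_of_powerSum_eq_zero {κ : Type*} [Fintype κ] (z : κ → ℂ)
    (h : ∀ r, 1 ≤ r → r ≤ Fintype.card κ → ∑ i, z i ^ r = 0) : z = 0 := by
  classical
  funext i
  by_contra hi
  set V : Finset ℂ := (univ.image z).erase 0 with hV
  set e : Fin V.card ≃ V := V.equivFin.symm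
  set f : Fin V.card → ℂ := fun j => (e j : ℂ)
  set v : Fin V.card → ℂ := fun j => ((univ.filter fun i => z i = f j).card : ℂ) * f j
  have hf : Function.Injective f := Subtype.val_injective.comp e.injective
  have hcard : V.card ≤ Fintype.card κ :=
    (Finset.card_le_card (Finset.erase_subset _ _)).trans Finset.card_image_le
  have hv : v = 0 := by
    refine Matrix.eq_zero_of_forall_pow_sum_mul_pow_eq_zero hf fun j => ?_
    have hj := h (j.val + 1) (by omega) (by omega)
    rw [← Finset.sum_fiberwise_of_maps_to (t := univ.image z) (g := z)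
      (fun x _ => Finset.mem_image_of_mem z (Finset.mem_univ x))] at hj
    have h0 : ∀ w ∈ univ.image z,
        ∑ x ∈ univ.filter (fun x => z x = w), z x ^ (j.val + 1) =
          ((univ.filter fun x => z x = w).card : ℂ) * w * w ^ j.val := by
      intro w _
      rw [Finset.sum_congr rfl (fun x hx => by rw [(Finset.mem_filter.1 hx).2]),
        Finset.sum_const, nsmul_eq_mul, pow_succ]
      ring
    rw [Finset.sum_congr rfl h0] at hj
    rw [← Finset.sum_erase (univ.image z) (a := (0 : ℂ)) (by simp)] at hj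
    rw [← hV] at hj
    rw [← Finset.sum_coe_sort V, ← e.sum_comp] at hj
    exact hj
  have hmem : z i ∈ V := Finset.mem_erase.2 ⟨hi, Finset.mem_image_of_mem z (Finset.mem_univ i)⟩
  have hj := congrFun hv (e.symm ⟨z i, hmem⟩)
  simp only [v, f, Equiv.apply_symm_apply, Pi.zero_apply, mul_eq_zero, Nat.cast_eq_zero,
    Finset.card_eq_zero] at hj
  rcases hj with hj | hj
  · exact (Finset.notMem_empty i) (hj ▸ Finset.mem_filter.2 ⟨Finset.mem_univ i, rfl⟩)
  · exact hi hj

/-- On a polydisc the squared entries are dominated by the power sums up to `ε`. -/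
theorem exists_powerSum_bound {κ : Type*} [Fintype κ] (R : ℝ) {ε : ℝ} (hε : 0 < ε) :
    ∃ C : ℝ, ∀ z : κ → ℂ, (∀ i, ‖z i‖ ≤ R) → ∀ i,
      ‖z i‖ ^ 2 ≤ ε + C * ∑ r ∈ Finset.Icc 1 (Fintype.card κ), ‖∑ j, z j ^ r‖ ^ 2 := by
  set f : (κ → ℂ) → ℝ :=
    fun z => ∑ r ∈ Finset.Icc 1 (Fintype.card κ), ‖∑ j, z j ^ r‖ ^ 2 with hf
  set K : Set (κ → ℂ) := Set.pi Set.univ (fun _ => Metric.closedBall (0 : ℂ) R) ∩
    ⋃ i, {z | ε ≤ ‖z i‖ ^ 2} with hK
  have hKc : IsCompact K :=
    (isCompact_univ_pi fun _ => isCompact_closedBall (0 : ℂ) R).inter_right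
      (isClosed_iUnion_of_finite fun i => isClosed_le continuous_const (by fun_prop))
  have hf0 : ∀ z, 0 ≤ f z := fun z => Finset.sum_nonneg fun r _ => sq_nonneg _
  obtain ⟨m, hm, hmK⟩ := hKc.exists_forall_le' (f := f) (by fun_prop) (a := 0) (by
    intro z hz
    refine (hf0 z).lt_of_ne fun h0 => ?_
    obtain ⟨i, hi⟩ := Set.mem_iUnion.1 hz.2
    have hz0 := eq_zero_of_powerSum_eq_zero z fun r h1 h2 => by
      have := (Finset.sum_eq_zero_iff_of_nonneg fun r _ => sq_nonneg _).1 h0.symm r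
        (Finset.mem_Icc.2 ⟨h1, h2⟩)
      simpa using this
    simp only [Set.mem_ofPred_eq, hz0, Pi.zero_apply, norm_zero] at hi
    linarith)
  refine ⟨R ^ 2 / m, fun z hz i => ?_⟩
  have hC : 0 ≤ R ^ 2 / m := by positivity
  by_cases h : ε ≤ ‖z i‖ ^ 2
  · have hmf : m ≤ f z := hmK z ⟨fun j _ => by simpa using hz j, Set.mem_iUnion.2 ⟨i, h⟩⟩
    have h1 : ‖z i‖ ^ 2 ≤ R ^ 2 / m * f z := by
      calc ‖z i‖ ^ 2 ≤ R ^ 2 := by gcongr; exact hz i
        _ = R ^ 2 / m * m := by field_simp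
        _ ≤ R ^ 2 / m * f z := by gcongr
    linarith
  · have := mul_nonneg hC (hf0 z)
    push Not at h
    linarith

/-- A self-adjoint element of a closed commutative `*`-algebra is nonnegative if all characters
are. -/
theorem nonneg_of_characters {B : Type*} [CStarAlgebra B] [PartialOrder B] [StarOrderedRing B]
    (S : StarSubalgebra ℂ B) [IsClosed (S : Set B)] (hS : ∀ a b : S, a * b = b * a) (x : S)
    (hsa : IsSelfAdjoint (x : B)) (hx : ∀ χ : S →⋆ₐ[ℂ] ℂ, 0 ≤ (χ x).re) : 0 ≤ (x : B) := by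
  rw [StarOrderedRing.nonneg_iff_spectrum_nonneg (R := ℝ) _ hsa]
  intro r hr
  let _ : CommCStarAlgebra S :=
    { (StarSubalgebra.cstarAlgebra S : CStarAlgebra S) with mul_comm := hS }
  rw [← spectrum.algebraMap_mem_iff ℂ, ← StarSubalgebra.spectrum_eq,
    WeakDual.CharacterSpace.mem_spectrum_iff_exists] at hr
  obtain ⟨χ, hχ⟩ := hr
  let χ' : S →⋆ₐ[ℂ] ℂ :=
    { WeakDual.CharacterSpace.toAlgHom χ with map_star' := fun a => map_star χ a }
  have h := hx χ'
  change 0 ≤ (χ x).re at h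
  simpa [hχ] using h

/-- Commuting normal elements, closed under `star`, whose power sums vanish in a positive
functional vanish in it. -/
theorem state_star_mul_self_eq_zero {B : Type*} [CStarAlgebra B] [PartialOrder B]
    [StarOrderedRing B] (φ : B →ₗ[ℂ] ℂ) (hφ : ∀ b : B, 0 ≤ b → 0 ≤ (φ b).re)
    {κ : Type*} [Fintype κ] (K : κ → B) (σ : κ → κ) (hσ : ∀ i, star (K i) = K (σ i))
    (hc : ∀ i j, Commute (K i) (K j))
    (hP : ∀ r, 1 ≤ r → r ≤ Fintype.card κ →
      (φ (star (∑ i, K i ^ r) * ∑ i, K i ^ r)).re = 0) (i : κ) :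
    (φ (star (K i) * K i)).re = 0 := by
  refine le_antisymm ?_ (hφ _ (star_mul_self_nonneg _))
  set R : ℝ := ∑ j, ‖K j‖ with hR
  set S := (StarAlgebra.adjoin ℂ (Set.range K)).topologicalClosure with hSdef
  have hmc : IsMulCommutative (StarAlgebra.adjoin ℂ (Set.range K)) :=
    StarAlgebra.isMulCommutative_adjoin ℂ
      (by rintro _ ⟨a, rfl⟩ _ ⟨b, rfl⟩; exact hc a b)
      (by rintro _ ⟨a, rfl⟩ _ ⟨b, rfl⟩; rw [hσ b]; exact hc a (σ b))
  have hclosed : IsClosed (S : Set B) := StarSubalgebra.isClosed_topologicalClosure _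
  have hcomm : ∀ a b : S, a * b = b * a :=
    (StarSubalgebra.commRingTopologicalClosure (StarAlgebra.adjoin ℂ (Set.range K))
      (fun a b => mul_comm' a b)).mul_comm
  let k : κ → S := fun j => ⟨K j, StarSubalgebra.le_topologicalClosure _
    (StarAlgebra.subset_adjoin ℂ _ (Set.mem_range_self j))⟩
  refine le_of_forall_pos_le_add fun δ hδ => ?_
  set ε : ℝ := δ / ((φ 1).re + 1) with hεdef
  have h1 : 0 ≤ (φ 1).re := hφ 1 (by simp)
  have hε : 0 < ε := by positivity
  obtain ⟨C, hC⟩ := exists_powerSum_bound (κ := κ) R hε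
  set T : S := (ε : ℂ) • 1 +
    (C : ℂ) • ∑ r ∈ Finset.Icc 1 (Fintype.card κ), star (∑ j, k j ^ r) * (∑ j, k j ^ r) -
      star (k i) * k i with hT
  have hTc : (T : B) = (ε : ℂ) • 1 +
      (C : ℂ) • ∑ r ∈ Finset.Icc 1 (Fintype.card κ), star (∑ j, K j ^ r) * (∑ j, K j ^ r) -
        star (K i) * K i := by
    simp [hT, k]
  have hTsa : IsSelfAdjoint (T : B) := by
    rw [hTc, IsSelfAdjoint]
    simp [star_sum, star_smul, star_mul]
  have hTnn : 0 ≤ (T : B) := by
    refine nonneg_of_characters S hcomm T hTsa fun χ => ?_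
    set z : κ → ℂ := fun j => χ (k j) with hz
    have hzR : ∀ j, ‖z j‖ ≤ R := fun j => by
      calc ‖z j‖ ≤ ‖k j‖ := NonUnitalStarAlgHom.norm_apply_le χ (k j)
        _ = ‖K j‖ := rfl
        _ ≤ R := Finset.single_le_sum (f := fun j => ‖K j‖) (fun j _ => norm_nonneg _)
          (Finset.mem_univ j)
    have h := hC z hzR i
    have e : χ T = (ε : ℂ) + (C : ℂ) *
        ∑ r ∈ Finset.Icc 1 (Fintype.card κ), ((‖∑ j, z j ^ r‖ ^ 2 : ℝ) : ℂ) -
          ((‖z i‖ ^ 2 : ℝ) : ℂ) := by
      rw [hT, map_sub, map_add, map_smul, map_smul, map_one, map_sum]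
      simp [hz, map_sum, map_star, ← Complex.conj_mul']
    rw [e]
    simp only [Complex.sub_re, Complex.add_re, Complex.re_ofReal_mul, Complex.re_sum,
      Complex.ofReal_re]
    linarith
  have h := hφ _ hTnn
  rw [hTc] at h
  simp only [map_sub, map_add, map_smul, map_sum, smul_eq_mul, Complex.sub_re, Complex.add_re,
    Complex.re_ofReal_mul, Complex.re_sum] at h
  rw [Finset.sum_eq_zero (fun r hr => hP r (Finset.mem_Icc.1 hr).1 (Finset.mem_Icc.1 hr).2),
    mul_zero, add_zero] at h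
  have h2 : ε * (φ 1).re ≤ δ := by
    rw [hεdef, div_mul_eq_mul_div, div_le_iff₀ (by positivity)]
    nlinarith
  linarith

end Vale.Agent.P095
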