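import Vale.Agent.P095.Indisc
import Vale.Agent.P095.PowerSum

/-!
# P095: indiscernible slots cannot carry positive mass
-/

noncomputable section

namespace Vale.Agent.P095

open Filter Topology BoundedContinuousFunction Vale.Agent.P101 Finset

universe u v

variable {G : Type v} [Group G] [Fintype G] {B : Type u} [CStarAlgebra B] {S : Setup G B}
  {R : ℕ} {η : ℝ} (I : Indisc S R η)

namespace Indisc

/-- The centred slot. -/
def d (s : ℕ) : B := I.y s - I.l

theorem norm_act_d (g : G) (s : ℕ) : ‖S.act g (I.d s)‖ ≤ 2 :=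
  (NonUnitalStarAlgHom.norm_apply_le _ _).trans
    ((norm_sub_le _ _).trans (by linarith [I.norm_y s, I.norm_l]))

theorem norm_d (s : ℕ) : ‖I.d s‖ ≤ 2 :=
  (norm_sub_le _ _).trans (by linarith [I.norm_y s, I.norm_l])

theorem comm_d {s t : ℕ} (h : s ≠ t) (g k : G) :
    StarCommute (S.act g (I.d s)) (S.act k (I.d t)) := by
  simp only [d, map_sub]
  exact StarCommute.sub_left (StarCommute.sub_right (I.comm_y s t h g k) (I.comm_l s g k))
    (StarCommute.sub_right (StarCommute.symm (I.comm_l t k g)) (I.comm_ll g k))

theorem comm_d_one {s t : ℕ} (h : s ≠ t) : StarCommute (I.d s) (I.d t) := by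
  simpa [S.act_one] using I.comm_d h 1 1

theorem state_d_pair {s t : ℕ} (h : s < t) :
    S.state (star (I.d s) * I.d t) = (I.cc - star I.cc) / 2 := by
  have e : S.state (star I.l * I.y t) = star I.cc := by
    rw [← I.pair_l t, ← S.state_star, star_mul, star_star]
  simp only [d, star_sub, sub_mul, mul_sub, map_sub, I.pair s t h, I.pair_l, e, I.pair_ll]
  ring

/-- The average of the centred slots. -/
def davg : ℕ →ᵇ B := avgSeq I.d 2 I.norm_d

theorem state_davg : Tendsto (fun n => S.state ((star I.davg * I.davg) n)) atTop (𝓝 0) := by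
  refine squeeze_zero_norm' ?_
    (Tendsto.div_atTop (a := (4 : ℝ)) tendsto_const_nhds tendsto_natCast_atTop_atTop)
  filter_upwards [eventually_ge_atTop 1] with n hn
  set F : Fin n → Fin n → ℂ := fun s t => S.state (star (I.d s) * I.d t) with hF
  have hanti : ∀ s t, F s t + F t s = if s = t then 2 * F s s else 0 := by
    intro s t
    rcases lt_trichotomy s t with h | h | h
    · have e : F t s = star (F s t) := by
        simp only [hF]; rw [← S.state_star, star_mul, star_star]
      rw [if_neg h.ne, e]
      simp only [hF, I.state_d_pair (Fin.lt_def.1 h), star_div₀, star_sub, star_star, star_ofNat]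
      ring
    · subst h; rw [if_pos rfl]; ring
    · have e : F s t = star (F t s) := by
        simp only [hF]; rw [← S.state_star, star_mul, star_star]
      rw [if_neg h.ne', e]
      simp only [hF, I.state_d_pair (Fin.lt_def.1 h), star_div₀, star_sub, star_star, star_ofNat]
      ring
  have hsum : ∑ s, ∑ t, F s t = ∑ s, F s s := by
    have h2 : ∑ s, ∑ t, (F s t + F t s) = 2 * ∑ s, F s s := by
      simp only [hanti, sum_ite_eq, mem_univ, if_true, mul_sum]
    simp only [sum_add_distrib] at h2
    rw [sum_comm (f := fun s t => F t s)] at h2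
    linear_combination h2 / 2
  have e : S.state ((star I.davg * I.davg) n) = (n : ℂ)⁻¹ * (n : ℂ)⁻¹ * ∑ s, ∑ t, F s t := by
    simp only [davg, avgSeq, BoundedContinuousFunction.coe_mul, Pi.mul_apply,
      BoundedContinuousFunction.star_apply, bseq_apply, star_smul, star_inv₀, star_natCast,
      star_sum, smul_mul_smul_comm, map_smul, smul_eq_mul, Finset.sum_mul, Finset.mul_sum,
      map_sum, hF]
    rw [Finset.sum_comm]
  rw [e, hsum, norm_mul, norm_mul, norm_inv, Complex.norm_natCast]
  have hb : ∀ s, ‖F s s‖ ≤ 4 := fun s => (S.norm_state_le _).trans ((norm_mul_le _ _).trans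
    (by rw [norm_star]; nlinarith [I.norm_d s, norm_nonneg (I.d s)]))
  refine (mul_le_mul_of_nonneg_left ((norm_sum_le _ _).trans (sum_le_sum fun s _ => hb s))
    (by positivity)).trans (le_of_eq ?_)
  have : (n : ℝ) ≠ 0 := Nat.cast_ne_zero.2 (by omega)
  simp only [sum_const, card_univ, Fintype.card_fin, nsmul_eq_mul]
  field_simp

theorem limit_davg : S.limit.state (star (seqMk B atTop I.davg) * seqMk B atTop I.davg) = 0 := by
  rw [← map_star, ← map_mul]
  exact S.limit_state_eq (I.state_davg.mono_left Nat.hyperfilter_le_atTop)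

theorem slotProd_eq {r : ℕ} (T : Fin r → ℕ) :
    slotProd I.y I.l T = (List.ofFn fun i => I.d (T i)).prod := rfl

theorem state_slotProd_sort {r : ℕ} (T : Fin r → ℕ) (hT : Function.Injective T) :
    slotProd I.y I.l T = slotProd I.y I.l (T ∘ Tuple.sort T) := by
  simp only [slotProd_eq]
  refine List.Perm.prod_eq' ((Equiv.Perm.ofFn_comp_perm (Tuple.sort T) fun i => I.d (T i)).symm) ?_
  rw [List.pairwise_ofFn]
  exact fun i j hij => (I.comm_d_one (hT.ne hij.ne)).1

/-- The state vanishes on products over distinct slots. -/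
theorem state_slotProd {r : ℕ} (hr : 1 ≤ r) (hrR : r ≤ R) (T : Fin r → ℕ)
    (hT : Function.Injective T) : S.state (slotProd I.y I.l T) = 0 := by
  have hmono : ∀ T : Fin r → ℕ, Function.Injective T → StrictMono (T ∘ Tuple.sort T) :=
    fun T hT => (Tuple.monotone_sort T).strictMono_of_injective
      (hT.comp (Tuple.sort T).injective)
  set c := S.state (slotProd I.y I.l fun i : Fin r => (i : ℕ)) with hc
  have hconst : ∀ T : Fin r → ℕ, Function.Injective T → S.state (slotProd I.y I.l T) = c :=
    fun T hT => by
      rw [I.state_slotProd_sort T hT]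
      exact I.const r hrR _ _ (hmono T hT) Fin.val_strictMono
  rw [hconst T hT]
  have h1 : Tendsto (fun n : ℕ => S.state ((I.davg ^ r) n)) atTop (𝓝 c) := by
    simp only [davg, avgSeq_pow, map_smul, smul_eq_mul, map_sum]
    refine tendsto_tupleAverage hr (fun n f => S.state (List.ofFn fun i => I.d (f i)).prod)
      (C := max 1 ‖(1 : B)‖ * 2 ^ r) (fun n f => (S.norm_state_le _).trans
        (norm_listProd_ofFn_le _ fun i => I.norm_d _)) fun n f hf => ?_
    exact hconst (fun i => (f i : ℕ)) (Fin.val_injective.comp hf)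
  have h2 : S.limit.state (seqMk B atTop (I.davg ^ r)) = 0 := by
    obtain ⟨k, rfl⟩ := Nat.exists_eq_add_of_le hr
    rw [add_comm 1 k, pow_succ, map_mul]
    exact S.limit.state_mul_right_null I.limit_davg _
  exact tendsto_nhds_unique ((h1.mono_left Nat.hyperfilter_le_atTop))
    (h2 ▸ S.tendsto_limit_state (I.davg ^ r))

/-- The correlation of two translates. -/
def kf (p : G × G) (s : ℕ) : B := star (S.act p.1 (I.d s)) * S.act p.2 (I.d s)

theorem norm_kf (p : G × G) (s : ℕ) : ‖I.kf p s‖ ≤ 4 := by
  refine (norm_mul_le _ _).trans ?_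
  rw [norm_star]
  nlinarith [I.norm_act_d p.1 s, I.norm_act_d p.2 s, norm_nonneg (S.act p.1 (I.d s)),
    norm_nonneg (S.act p.2 (I.d s))]

/-- The averaged correlations. -/
def kavg (p : G × G) : ℕ →ᵇ B := avgSeq (I.kf p) 4 (I.norm_kf p)

theorem star_kavg (p : G × G) : star (seqMk B atTop (I.kavg p)) = seqMk B atTop (I.kavg p.swap) := by
  rw [← map_star]
  congr 1
  ext n
  simp [kavg, avgSeq, kf, star_sum]

theorem commute_kavg (p q : G × G) :
    Commute (seqMk B atTop (I.kavg p)) (seqMk B atTop (I.kavg q)) := by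
  refine avgSeq_commute _ _ _ _ _ _ fun s t hst => ?_
  have h := fun g k => I.comm_d hst g k
  have hl : ∀ k, Commute (star (S.act p.1 (I.d s))) (S.act k (I.d t)) ∧
      Commute (S.act p.2 (I.d s)) (star (S.act k (I.d t))) ∧
      Commute (star (S.act p.1 (I.d s))) (star (S.act k (I.d t))) := fun k =>
    ⟨by simpa using (h p.1 k).2.star_star, (h p.2 k).2, (h p.1 k).1.star_star⟩
  exact ((hl q.1).2.2.mul_right (hl q.2).1).mul_left ((hl q.1).2.1.mul_right (h p.2 q.2).1)

/-- The power sums of the correlations. -/
def psum (r : ℕ) : SeqQuot B atTop := ∑ p : G × G, seqMk B atTop (I.kavg p) ^ r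

theorem act_psum (g : G) (r : ℕ) : S.limit.act g (I.psum r) = I.psum r := by
  simp only [psum, map_sum, map_pow]
  refine Fintype.sum_equiv ((Equiv.mulLeft g).prodCongr (Equiv.mulLeft g)) _ _ fun p => ?_
  congr 1
  rw [S.limit_act_mk]
  congr 1
  ext n
  simp [kavg, avgSeq, kf, map_sum, S.act_mul, map_star]

theorem state_psum {r : ℕ} (hr : 1 ≤ r) (hrR : r ≤ R) : S.limit.state (I.psum r) = 0 := by
  have e : I.psum r = seqMk B atTop (∑ p : G × G, I.kavg p ^ r) := by
    simp [psum]
  rw [e]
  refine S.limit_state_eq ?_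
  refine (Tendsto.congr (fun n => ?_) (tendsto_tupleAverage hr
    (fun n f => ∑ p : G × G, S.state (List.ofFn fun i => I.kf p (f i)).prod)
    (C := ∑ _p : G × G, max 1 ‖(1 : B)‖ * 4 ^ r) (fun n f => (norm_sum_le _ _).trans
      (sum_le_sum fun p _ => (S.norm_state_le _).trans
        (norm_listProd_ofFn_le _ fun i => I.norm_kf p _))) (c := 0) ?_)).mono_left
    Nat.hyperfilter_le_atTop
  · simp only [BoundedContinuousFunction.coe_sum, Finset.sum_apply, kavg, avgSeq_pow, map_sum,
      map_smul, smul_eq_mul, Finset.mul_sum]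
    rw [Finset.sum_comm]
  · intro n f hf
    set P := (List.ofFn fun i => I.d (f i)).prod with hP
    have hP0 : S.state (S.orbitSum P) = 0 := by
      have : S.state P = 0 := I.state_slotProd hr hrR _ (Fin.val_injective.comp hf)
      simp [Setup.orbitSum, S.state_act, this]
    have h := S.state_sq (S.orbitSum P) fun g => S.act_orbitSum g P
    rw [hP0, mul_zero] at h
    rw [← h, Setup.orbitSum, star_sum, Finset.sum_mul_sum]
    simp only [map_sum]
    rw [← Fintype.sum_prod_type']
    · refine (Finset.sum_congr rfl fun p _ => ?_)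
      congr 1
      rw [hP, map_list_prod, map_list_prod, List.map_ofFn, List.map_ofFn]
      symm
      exact star_prod_mul_prod _ _ fun i j hij =>
        ⟨I.comm_d (Fin.val_ne_of_ne (hf.ne hij)) _ _, I.comm_d (Fin.val_ne_of_ne (hf.ne hij)) _ _⟩

/-- **Indiscernible slots carry no mass.** -/
theorem false_of_pos (I : Indisc S (Fintype.card (G × G)) η) (hη : 0 < η) : False := by
  let _ : PartialOrder (SeqQuot B atTop) := CStarAlgebra.spectralOrder _
  let _ : StarOrderedRing (SeqQuot B atTop) := CStarAlgebra.spectralOrderedRing _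
  have hK := state_star_mul_self_eq_zero S.limit.state (fun b hb => S.limit.re_state_nonneg hb)
    (fun p : G × G => seqMk B atTop (I.kavg p)) Prod.swap I.star_kavg I.commute_kavg
    (fun r hr hrR => by
      have h := S.limit.state_sq (I.psum r) fun g => I.act_psum g r
      rw [I.state_psum hr hrR, mul_zero] at h
      exact (congrArg Complex.re h).trans Complex.zero_re) (1, 1)
  have hK0 : S.limit.state (seqMk B atTop (I.kavg (1, 1))) = 0 := by
    have h := S.limit.state_mul_right_null (Complex.ext hK (S.limit.im_zero _)) 1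
    simpa using h
  have hav : Tendsto (fun n : ℕ => (n : ℝ)⁻¹ * ∑ s : Fin n, (S.state (star (I.d s) * I.d s)).re)
      (hyperfilter ℕ) (𝓝 0) := by
    have h := Complex.continuous_re.continuousAt.tendsto.comp
      (hK0 ▸ S.tendsto_limit_state (I.kavg (1, 1)))
    refine Tendsto.congr (fun n => ?_) h
    simp [kavg, avgSeq, kf, S.act_one, map_sum, Complex.re_sum, ← Complex.ofReal_natCast,
      ← Complex.ofReal_inv]
  let _ : PartialOrder B := CStarAlgebra.spectralOrder _
  let _ : StarOrderedRing B := CStarAlgebra.spectralOrderedRing _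
  set x := star I.l * I.l with hx
  have hbound : ∀ s, (S.state (star x * x)).re ≤ 4 * (S.state (star (I.d s) * I.d s)).re := by
    intro s
    have hc : Commute (I.y s) I.l := by simpa [S.act_one] using (I.comm_l s 1 1).1
    have hl : Commute I.l (star I.l) := by simpa [S.act_one] using (I.comm_ll 1 1).2
    have e1 : (I.y s + I.l) * I.d s = -(I.l * I.l) := by
      simp only [d, mul_sub, add_mul, I.sq s, hc.eq]
      abel
    have e2 : star x * x = star (I.l * I.l) * (I.l * I.l) := by
      simp only [hx, star_mul, star_star]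
      calc star I.l * I.l * (star I.l * I.l)
          = star I.l * (I.l * star I.l) * I.l := by simp only [mul_assoc]
        _ = star I.l * (star I.l * I.l) * I.l := by rw [hl.eq]
        _ = star I.l * star I.l * (I.l * I.l) := by simp only [mul_assoc]
    have hn : ‖I.y s + I.l‖ ≤ 2 := (norm_add_le _ _).trans (by linarith [I.norm_y s, I.norm_l])
    have h4 : star (I.y s + I.l) * (I.y s + I.l) ≤ algebraMap ℝ B 4 :=
      (IsSelfAdjoint.star_mul_self _).le_algebraMap_norm_self.trans (algebraMap_mono B (by
        rw [CStarRing.norm_star_mul_self]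
        nlinarith [norm_nonneg (I.y s + I.l)]))
    have hle : star x * x ≤ (4 : ℝ) • (star (I.d s) * I.d s) := by
      calc star x * x = star ((I.y s + I.l) * I.d s) * ((I.y s + I.l) * I.d s) := by
            rw [e2, e1, star_neg, neg_mul_neg]
        _ = star (I.d s) * (star (I.y s + I.l) * (I.y s + I.l)) * I.d s := by
            simp only [star_mul, mul_assoc]
        _ ≤ star (I.d s) * algebraMap ℝ B 4 * I.d s := star_left_conjugate_le_conjugate h4 _
        _ = _ := by
            rw [Algebra.algebraMap_eq_smul_one, mul_smul_comm, smul_mul_assoc, mul_one]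
    have := S.re_state_mono hle
    rwa [LinearMap.map_smul_of_tower, Complex.smul_re, smul_eq_mul] at this
  have havge : ∀ {a c : ℝ}, (∀ s, a ≤ c * (S.state (star (I.d s) * I.d s)).re) → a ≤ 0 := by
    intro a c h
    have h0 := hav.const_mul c
    rw [mul_zero] at h0
    refine ge_of_tendsto h0 (Nat.hyperfilter_le_atTop ((eventually_ge_atTop 1).mono fun n hn => ?_))
    have : (n : ℝ) ≠ 0 := Nat.cast_ne_zero.2 (by omega)
    calc a = (n : ℝ)⁻¹ * ∑ _s : Fin n, a := by simp; field_simp
      _ ≤ (n : ℝ)⁻¹ * ∑ s : Fin n, c * (S.state (star (I.d s) * I.d s)).re :=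
          mul_le_mul_of_nonneg_left (sum_le_sum fun s _ => h s) (by positivity)
      _ = c * ((n : ℝ)⁻¹ * ∑ s : Fin n, (S.state (star (I.d s) * I.d s)).re) := by
          rw [← mul_sum]; ring
  have hx0 : S.state (star x * x) = 0 :=
    Complex.ext (le_antisymm (havge hbound) (S.re_nonneg x)) (S.im_zero x)
  have hll : S.state (star I.l * I.l) = 0 := by
    simpa [hx] using S.state_mul_right_null hx0 1
  have hlow : ∀ s, η ≤ 2 * (S.state (star (I.d s) * I.d s)).re := by
    intro s
    have h := S.re_nonneg (I.d s - I.l)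
    have hy : I.y s = I.d s + I.l := by simp [d]
    have hs := I.low s
    rw [hy] at hs
    simp only [star_sub, sub_mul, mul_sub, map_sub, Complex.sub_re, hll, Complex.zero_re] at h
    simp only [star_add, add_mul, mul_add, map_add, Complex.add_re, hll, Complex.zero_re] at hs
    linarith
  linarith [havge hlow]

end Indisc

end Vale.Agent.P095
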