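import Vale.Agent.P101.Defs

/-!
# P095: shared statements
-/

noncomputable section

namespace Vale.Agent.P095

open Filter Topology Vale.Agent.P101

universe u v

/-- Central sequences, asymptotically fixed by the action, satisfying the relations of the
dimension-drop algebra `Z_{2,3}`. -/
def HasInvariantDimensionDrop (A : Type u) [CStarAlgebra A] {G : Type v} [Group G]
    (α : G →* (A ≃⋆ₐ[ℂ] A)) : Prop :=
  ∃ y v : ℕ → A, IsCentralSeq A atTop y ∧ IsCentralSeq A atTop v ∧
    Tendsto (fun n => ‖y n * y n‖) atTop (𝓝 0) ∧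
    Tendsto (fun n => ‖star (v n) * v n - (1 - star (y n) * y n - y n * star (y n))‖)
      atTop (𝓝 0) ∧
    Tendsto (fun n => ‖y n * star (y n) * v n - v n‖) atTop (𝓝 0) ∧
    ∀ g, Tendsto (fun n => ‖α g (y n) - y n‖) atTop (𝓝 0) ∧
      Tendsto (fun n => ‖α g (v n) - v n‖) atTop (𝓝 0)

end Vale.Agent.P095
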