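import Mathlib

/-!
# P095: ultrafilter-spread index sequences for finitely many bounded kernels
-/

noncomputable section

namespace Vale.Agent.P095

open Filter Topology

/-- Iterated limits along the hyperfilter, evaluated on initial segments. -/
def iterLim {a : ℕ} (F : (Fin a → ℕ) → ℂ) : ℕ → List ℕ → ℂ
  | 0, l => if h : l.length = a then F (fun j => l.get (Fin.cast h.symm j)) else 0
  | r + 1, l => limUnder (hyperfilter ℕ : Filter ℕ) fun p => iterLim F r (l ++ [p])

theorem iterLim_spec {a : ℕ} {F : (Fin a → ℕ) → ℂ} {C : ℝ} (hF : ∀ T, ‖F T‖ ≤ C) :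
    ∀ r l, ‖iterLim F r l‖ ≤ max C 0 ∧
      Tendsto (fun p => iterLim F r (l ++ [p])) (hyperfilter ℕ : Filter ℕ)
        (𝓝 (iterLim F (r + 1) l)) := by
  have key : ∀ g : ℕ → ℂ, (∀ p, ‖g p‖ ≤ max C 0) →
      Tendsto g (hyperfilter ℕ : Filter ℕ) (𝓝 (limUnder (hyperfilter ℕ : Filter ℕ) g)) ∧
        ‖limUnder (hyperfilter ℕ : Filter ℕ) g‖ ≤ max C 0 := by
    intro g hg
    have hle : (↑((hyperfilter ℕ).map g) : Filter ℂ) ≤ 𝓟 (Metric.closedBall 0 (max C 0)) := by
      simp only [Ultrafilter.coe_map, le_principal_iff, mem_map]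
      exact univ_mem' fun p => by simpa using hg p
    obtain ⟨z, hz, hlim⟩ :=
      (isCompact_closedBall (0 : ℂ) (max C 0)).ultrafilter_le_nhds _ hle
    have ht : Tendsto g (hyperfilter ℕ : Filter ℕ) (𝓝 z) := hlim
    rw [ht.limUnder_eq]
    exact ⟨ht, by simpa using hz⟩
  have hb : ∀ r l, ‖iterLim F r l‖ ≤ max C 0 := by
    intro r
    induction r with
    | zero =>
      intro l
      simp only [iterLim]
      split
      · exact (hF _).trans (le_max_left _ _)
      · simp
    | succ r ih => exact fun l => (key _ fun p => ih _).2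
  exact fun r l => ⟨hb r l, (key _ fun p => hb r _).1⟩

/-- Finitely many bounded kernels are nearly constant on the increasing tuples of a suitable
finite increasing index sequence. -/
theorem exists_spread {ι : Type*} [Finite ι] (a : ι → ℕ) (F : ∀ i, (Fin (a i) → ℕ) → ℂ) (C : ℝ)
    (hF : ∀ i T, ‖F i T‖ ≤ C) (N : ℕ) {ε : ℝ} (hε : 0 < ε) :
    ∃ (idx : Fin N → ℕ) (c : ι → ℂ), StrictMono idx ∧
      ∀ i, ∀ T : Fin (a i) → Fin N, StrictMono T → ‖F i (idx ∘ T) - c i‖ ≤ ε := by
  set e : ι → ℝ := fun i => ε / ((a i : ℝ) + 1) with he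
  have he0 : ∀ i, 0 < e i := fun i => by positivity
  have main : ∀ n : ℕ, ∃ P : List ℕ, P.length = n ∧ P.Pairwise (· < ·) ∧
      ∀ l p, List.Sublist (l ++ [p]) P → ∀ i r, r < a i →
        ‖iterLim (F i) r (l ++ [p]) - iterLim (F i) (r + 1) l‖ ≤ e i := by
    intro n
    induction n with
    | zero =>
      refine ⟨[], rfl, List.Pairwise.nil, fun l p h => ?_⟩
      simp at h
    | succ n ih =>
      obtain ⟨P, hlen, hpw, hP⟩ := ih
      have hev : ∀ᶠ p in (hyperfilter ℕ : Filter ℕ), (∀ q ∈ P, q < p) ∧
          ∀ l ∈ {l | l ∈ P.sublists}, ∀ i, ∀ r ∈ Finset.range (a i),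
            ‖iterLim (F i) r (l ++ [p]) - iterLim (F i) (r + 1) l‖ ≤ e i := by
        refine Eventually.and ?_ ?_
        · have h1 : ∀ᶠ p in atTop, ∀ q ∈ P, q < p :=
            (List.finite_toSet P).eventually_all.2 fun q _ => eventually_gt_atTop q
          rw [← Nat.cofinite_eq_atTop] at h1
          exact h1.filter_mono hyperfilter_le_cofinite
        · refine (List.finite_toSet P.sublists).eventually_all.2 fun l _ => ?_
          refine eventually_all.2 fun i => ?_
          refine (Finset.eventually_all _).2 fun r _ => ?_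
          have ht := ((iterLim_spec (hF i) r l).2)
          rw [Metric.tendsto_nhds] at ht
          filter_upwards [ht (e i) (he0 i)] with p hp
          rw [dist_eq_norm] at hp
          exact hp.le
      obtain ⟨p₀, hlt, hp₀⟩ := hev.exists
      refine ⟨P ++ [p₀], by simp [hlen], ?_, ?_⟩
      · rw [List.pairwise_append]
        exact ⟨hpw, List.pairwise_singleton _ _, fun q hq p hp => by
          rw [List.mem_singleton] at hp; exact hp ▸ hlt q hq⟩
      · intro l p h i r hr
        obtain ⟨l₁, l₂, h12, h1, h2⟩ := List.sublist_append_iff.1 h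
        rcases List.sublist_singleton.1 h2 with rfl | rfl
        · rw [List.append_nil] at h12
          exact hP l p (h12 ▸ h1) i r hr
        · obtain ⟨rfl, hpp⟩ := List.append_inj' h12 rfl
          obtain rfl : p = p₀ := by simpa using hpp
          exact hp₀ l (List.mem_sublists.2 h1) i r (Finset.mem_range.2 hr)
  obtain ⟨P, rfl, hpw, hP⟩ := main N
  have tele : ∀ (i : ι) (l : List ℕ), List.Sublist l P → ∀ r, r + l.length ≤ a i →
      ‖iterLim (F i) r l - iterLim (F i) (r + l.length) []‖ ≤ (l.length : ℝ) * e i := by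
    intro i l
    induction l using List.reverseRecOn with
    | nil => intro _ r _; simp
    | append_singleton l p ih =>
      intro hl r hr
      rw [List.length_append, List.length_singleton] at hr ⊢
      have h1 := hP l p hl i r (by omega)
      have h2 := ih ((List.sublist_append_left l [p]).trans hl) (r + 1) (by omega)
      rw [show r + 1 + l.length = r + (l.length + 1) by omega] at h2
      refine (norm_sub_le_norm_sub_add_norm_sub _ (iterLim (F i) (r + 1) l) _).trans ?_
      push_cast
      linarith
  refine ⟨P.get, fun i => iterLim (F i) (a i) [], ?_, fun i T hT => ?_⟩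
  · intro x y hxy
    exact List.pairwise_iff_get.1 hpw x y hxy
  · have hsub : List.Sublist (List.ofFn (P.get ∘ T)) P := by
      rw [List.sublist_iff_exists_fin_orderEmbedding_get_eq]
      refine ⟨OrderEmbedding.ofStrictMono (fun x => T (Fin.cast (List.length_ofFn) x))
        (fun x y h => hT h), fun x => ?_⟩
      simp [Fin.cast]
    have h := tele i _ hsub 0 (by simp)
    rw [List.length_ofFn, zero_add] at h
    have h0 : iterLim (F i) 0 (List.ofFn (P.get ∘ T)) = F i (P.get ∘ T) := by
      rw [iterLim, dif_pos (List.length_ofFn)]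
      congr 1
      funext j
      simp
    rw [h0] at h
    refine h.trans ?_
    rw [he, ← mul_div_assoc, div_le_iff₀ (by positivity)]
    nlinarith

end Vale.Agent.P095
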