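import Vale.Agent.P095.Indisc
import Vale.Agent.P095.Spread

/-!
# P095: indiscernible slots from an infinite family of slots
-/

noncomputable section

namespace Vale.Agent.P095

open Filter Topology BoundedContinuousFunction Vale.Agent.P101 Finset

universe u v

variable {G : Type v} [Group G] [Fintype G] {B : Type u} [CStarAlgebra B]

theorem seqMk_starCommute {f g : ℕ →ᵇ B} (h : ∀ n, StarCommute (f n) (g n)) :
    StarCommute (seqMk B atTop f) (seqMk B atTop g) := by
  refine ⟨?_, ?_⟩
  · show _ * _ = _ * _
    rw [← map_mul, ← map_mul]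
    exact congrArg _ (DFunLike.ext _ _ fun n => (h n).1.eq)
  · show _ * _ = _ * _
    rw [← map_star, ← map_mul, ← map_mul]
    exact congrArg _ (DFunLike.ext _ _ fun n => (h n).2.eq)

theorem listProd_ofFn_apply {r : ℕ} (u : Fin r → (ℕ →ᵇ B)) (n : ℕ) :
    (List.ofFn u).prod n = (List.ofFn fun i => u i n).prod := by
  induction r with
  | zero => simp
  | succ r ih => simp [List.ofFn_succ, ih]

theorem slotProd_seqMk {r : ℕ} (Y : ℕ → (ℕ →ᵇ B)) (L : ℕ →ᵇ B) (T : Fin r → ℕ) :
    slotProd (fun s => seqMk B atTop (Y s)) (seqMk B atTop L) T =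
      seqMk B atTop (List.ofFn fun i => Y (T i) - L).prod := by
  rw [slotProd, map_list_prod, List.map_ofFn]
  simp [Function.comp_def]

/-- A strictly monotone tuple for the pattern of `r` selected slots and the block of centres. -/
theorem strictMono_append {r n : ℕ} {T : Fin r → Fin n} (hT : StrictMono T) :
    StrictMono (Fin.append (fun i => Fin.castAdd n (T i)) fun j : Fin n => Fin.natAdd n j) := by
  intro i j hij
  induction i using Fin.addCases with
  | left a =>
    induction j using Fin.addCases with
    | left b =>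
      simp only [Fin.append_left]
      exact Fin.strictMono_castAdd n (hT (by rw [Fin.lt_def] at hij ⊢; simpa using hij))
    | right b =>
      simp only [Fin.append_left, Fin.append_right, Fin.lt_def, Fin.val_castAdd, Fin.val_natAdd]
      have := (T a).isLt
      omega
  | right a =>
    induction j using Fin.addCases with
    | left b =>
      simp only [Fin.lt_def, Fin.val_castAdd, Fin.val_natAdd] at hij
      have := b.isLt
      omega
    | right b =>
      simp only [Fin.append_right]
      simp only [Fin.lt_def, Fin.val_natAdd] at hij ⊢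
      omega

/-- Eventually close state values give equal limit values. -/
theorem Setup.limit_state_congr (S : Setup G B) {f g : ℕ →ᵇ B} {C : ℝ}
    (h : ∀ᶠ n : ℕ in atTop, ‖S.state (f n) - S.state (g n)‖ ≤ C / ((n : ℝ) + 1)) :
    S.limit.state (seqMk B atTop f) = S.limit.state (seqMk B atTop g) := by
  refine S.limit_state_eq ?_
  have h0 : Tendsto (fun n => S.state (f n) - S.state (g n)) atTop (𝓝 0) := by
    refine squeeze_zero_norm' h ?_
    simpa [div_eq_mul_inv] using (tendsto_one_div_add_atTop_nhds_zero_nat (𝕜 := ℝ)).const_mul C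
  simpa using (h0.mono_left Nat.hyperfilter_le_atTop).add (S.tendsto_limit_state g)

/-- The centred product of a pattern. -/
def patternFun (S : Setup G B) (x : ℕ → B) (r n : ℕ) (T : Fin (r + n) → ℕ) : ℂ :=
  S.state (List.ofFn fun i : Fin r =>
    x (T (Fin.castAdd n i)) - (n : ℂ)⁻¹ • ∑ j : Fin n, x (T (Fin.natAdd r j))).prod

variable (S : Setup G B) (x : ℕ → B) {η : ℝ}

/-- **Indiscernible slots exist.** -/
theorem exists_indisc (hn : ∀ s, ‖x s‖ ≤ 1) (hsq : ∀ s, x s * x s = 0)
    (hc : ∀ s t, s ≠ t → ∀ g h, StarCommute (S.act g (x s)) (S.act h (x t)))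
    (hlow : ∀ s, η ≤ (S.state (star (x s) * x s)).re) (R : ℕ) :
    Nonempty (Indisc S.limit R η) := by
  classical
  set M : ℝ := max 1 ‖(1 : B)‖ * 2 ^ R + 1 with hM
  have havg : ∀ (n : ℕ) (k : Fin n → ℕ), ‖(n : ℂ)⁻¹ • ∑ j, x (k j)‖ ≤ 1 := by
    intro n k
    rcases Nat.eq_zero_or_pos n with rfl | hn0
    · simp
    rw [norm_smul, norm_inv, Complex.norm_natCast, inv_mul_le_iff₀ (by exact_mod_cast hn0)]
    calc ‖∑ j, x (k j)‖ ≤ ∑ j, ‖x (k j)‖ := norm_sum_le _ _
      _ ≤ ∑ _j : Fin n, (1 : ℝ) := sum_le_sum fun j _ => hn _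
      _ = (n : ℝ) * 1 := by simp
  -- the spreading at stage `n`
  have hsp : ∀ n : ℕ, ∃ (idx : Fin (n + n) → ℕ) (c : ℂ) (c' : Fin (R + 1) → ℂ),
      StrictMono idx ∧
      (∀ a b : Fin (n + n), a < b →
        ‖S.state (star (x (idx a)) * x (idx b)) - c‖ ≤ 1 / ((n : ℝ) + 1)) ∧
      ∀ r : Fin (R + 1), ∀ T : Fin (r.val + n) → Fin (n + n), StrictMono T →
        ‖patternFun S x r n (idx ∘ T) - c' r‖ ≤ 1 / ((n : ℝ) + 1) := by
    intro n
    obtain ⟨idx, c, hidx, hcl⟩ := exists_spread
      (fun o : Option (Fin (R + 1)) => o.elim 2 fun r => r.val + n)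
      (fun o => Option.rec (motive := fun o =>
        (Fin (o.elim 2 fun r : Fin (R + 1) => r.val + n) → ℕ) → ℂ)
        (fun T : Fin 2 → ℕ => S.state (star (x (T 0)) * x (T 1)))
        (fun r T => patternFun S x r.val n T) o) M
      (fun o T => by
        cases o with
        | none =>
          refine (S.norm_state_le _).trans ((norm_mul_le _ _).trans ?_)
          rw [norm_star]
          refine (mul_le_mul (hn _) (hn _) (norm_nonneg _) zero_le_one).trans ?_
          have : 0 ≤ max 1 ‖(1 : B)‖ * 2 ^ R := by positivity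
          simp only [one_mul]; linarith
        | some r =>
          refine (S.norm_state_le _).trans ((norm_listProd_ofFn_le _ (C := 2) fun i =>
            (norm_sub_le _ _).trans ?_).trans ?_)
          · linarith [hn (T (Fin.castAdd n i)), havg n fun j => T (Fin.natAdd r.val j)]
          · have : (2 : ℝ) ^ r.val ≤ 2 ^ R :=
              pow_le_pow_right₀ one_le_two (Nat.lt_succ_iff.1 r.isLt)
            have h1 : max 1 ‖(1 : B)‖ * 2 ^ r.val ≤ max 1 ‖(1 : B)‖ * 2 ^ R :=
              mul_le_mul_of_nonneg_left this (by positivity)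
            linarith)
      (n + n) (ε := 1 / ((n : ℝ) + 1)) (by positivity)
    exact ⟨idx, c none, fun r => c (some r), hidx,
      fun a b hab => hcl none ![a, b] (Fin.strictMono_iff_lt_succ.2 fun i => by rw [Fin.eq_zero i]; exact hab),
      fun r T hT => hcl (some r) T hT⟩
  choose idx c c' hidx hpair hpat using hsp
  let sel : ℕ → ℕ → B := fun n s =>
    if h : s < n then x (idx n (Fin.castAdd n ⟨s, h⟩)) else 0
  let ctr : ℕ → B := fun n => (n : ℂ)⁻¹ • ∑ j : Fin n, x (idx n (Fin.natAdd n j))
  have hsel : ∀ n s, ‖sel n s‖ ≤ 1 := fun n s => by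
    simp only [sel]; split_ifs with h
    · exact hn _
    · simp
  let Y : ℕ → (ℕ →ᵇ B) := fun s => bseq (fun n => sel n s) 1 fun n => hsel n s
  let L : ℕ →ᵇ B := bseq ctr 1 fun n => havg n _
  have hcomm_ctr : ∀ n s g h, StarCommute (S.act g (sel n s)) (S.act h (ctr n)) := by
    intro n s g h
    simp only [sel, ctr]; split_ifs with hs
    · have hne : ∀ j : Fin n, idx n (Fin.castAdd n ⟨s, hs⟩) ≠ idx n (Fin.natAdd n j) := fun j =>
        (hidx n).injective.ne (by simp only [ne_eq, Fin.ext_iff, Fin.val_castAdd, Fin.val_natAdd]; omega)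
      simp only [map_smul, map_sum]
      refine ⟨(Commute.sum_right _ _ _ fun j _ => (hc _ _ (hne j) g h).1).smul_right _, ?_⟩
      simp only [star_smul, star_sum]
      exact (Commute.sum_right _ _ _ fun j _ => (hc _ _ (hne j) g h).2).smul_right _
    · simp only [map_zero]; exact ⟨Commute.zero_left _, Commute.zero_left _⟩
  have hseq : ∀ (g : G) (f : ℕ →ᵇ B), S.limit.act g (seqMk B atTop f) =
      seqMk B atTop (seqComp (S.act g) f) := S.limit_act_mk
  refine ⟨{
    y := fun s => seqMk B atTop (Y s)
    l := seqMk B atTop L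
    norm_y := fun s => (norm_seqMk_le _).trans
      ((BoundedContinuousFunction.norm_le zero_le_one).2 fun n => hsel n s)
    norm_l := (norm_seqMk_le _).trans
      ((BoundedContinuousFunction.norm_le zero_le_one).2 fun n => havg n _)
    sq := fun s => ?_
    comm_y := fun s t hst g h => ?_
    comm_l := fun s g h => ?_
    comm_ll := fun g h => ?_
    cc := S.limit.state (star (seqMk B atTop (Y 0)) * seqMk B atTop (Y 1))
    pair := fun s t hst => ?_
    pair_l := fun s => ?_
    pair_ll := ?_
    const := fun r hr T T' hT hT' => ?_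
    low := fun s => ?_ }⟩
  · rw [← map_mul]
    refine seqMk_eq_zero.2 ?_
    have : ∀ n, (Y s * Y s) n = 0 := fun n => by
      show sel n s * sel n s = 0
      simp only [sel]; split_ifs with h
      · exact hsq _
      · simp
    simp [this]
  · simp only [hseq]
    refine seqMk_starCommute fun n => ?_
    show StarCommute (S.act g (sel n s)) (S.act h (sel n t))
    simp only [sel]; split_ifs with hs ht
    · exact hc _ _ ((hidx n).injective.ne fun e => hst (by simpa [Fin.ext_iff] using e)) g h
    all_goals simp only [map_zero]; constructor <;> simp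
  · simp only [hseq]
    exact seqMk_starCommute fun n => hcomm_ctr n s g h
  · simp only [hseq]
    refine ⟨?_, ?_⟩
    · show _ * _ = _ * _
      rw [← map_mul, ← map_mul, seqMk_eq_iff]
      refine squeeze_zero' (Eventually.of_forall fun n => norm_nonneg _) ?_
        (Tendsto.div_atTop (a := 2 * (1 : ℝ) * 1) tendsto_const_nhds tendsto_natCast_atTop_atTop)
      filter_upwards [eventually_ge_atTop 1] with n hn1
      simp only [BoundedContinuousFunction.coe_mul, Pi.mul_apply, seqComp_apply, L, bseq_apply,
        ctr, map_smul, map_sum]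
      exact norm_avg_commutator_le hn1 _ _
        (fun j => (NonUnitalStarAlgHom.norm_apply_le _ _).trans (hn _))
        (fun j => (NonUnitalStarAlgHom.norm_apply_le _ _).trans (hn _))
        fun i j hij => (hc _ _ ((hidx n).injective.ne fun e => hij (Fin.natAdd_injective n n e)) g h).1
    · show _ * _ = _ * _
      rw [← map_star, ← map_mul, ← map_mul, seqMk_eq_iff]
      refine squeeze_zero' (Eventually.of_forall fun n => norm_nonneg _) ?_
        (Tendsto.div_atTop (a := 2 * (1 : ℝ) * 1) tendsto_const_nhds tendsto_natCast_atTop_atTop)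
      filter_upwards [eventually_ge_atTop 1] with n hn1
      simp only [BoundedContinuousFunction.coe_mul, Pi.mul_apply, BoundedContinuousFunction.star_apply,
        seqComp_apply, L, bseq_apply, ctr, map_smul, map_sum, star_smul, star_inv₀, star_natCast,
        star_sum]
      exact norm_avg_commutator_le hn1 _ _
        (fun j => (NonUnitalStarAlgHom.norm_apply_le _ _).trans (hn _))
        (fun j => (norm_star _).le.trans ((NonUnitalStarAlgHom.norm_apply_le _ _).trans (hn _)))
        fun i j hij => (hc _ _ ((hidx n).injective.ne fun e => hij (Fin.natAdd_injective n n e)) g h).2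
  · rw [← map_star, ← map_star, ← map_mul, ← map_mul]
    refine S.limit_state_congr (C := 2) ?_
    filter_upwards [eventually_gt_atTop (t + 1)] with n hn1
    show ‖S.state (star (sel n s) * sel n t) - S.state (star (sel n 0) * sel n 1)‖ ≤ _
    simp only [sel, dif_pos (show s < n by omega), dif_pos (show t < n by omega),
      dif_pos (show 0 < n by omega), dif_pos (show 1 < n by omega)]
    have h1 := hpair n (Fin.castAdd n ⟨s, by omega⟩) (Fin.castAdd n ⟨t, by omega⟩) (by simpa [Fin.lt_def] using hst)
    have h2 := hpair n (Fin.castAdd n ⟨0, by omega⟩) (Fin.castAdd n ⟨1, by omega⟩) (by simp [Fin.lt_def])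
    refine (norm_sub_le_norm_sub_add_norm_sub _ (c n) _).trans ?_
    rw [norm_sub_rev (c n)]
    linarith [show (2 : ℝ) / ((n : ℝ) + 1) = 1 / ((n : ℝ) + 1) + 1 / ((n : ℝ) + 1) by ring]
  · rw [← map_star, ← map_star, ← map_mul, ← map_mul]
    refine S.limit_state_congr (C := 2) ?_
    filter_upwards [eventually_gt_atTop (s + 1)] with n hn1
    show ‖S.state (star (sel n s) * ctr n) - S.state (star (sel n 0) * sel n 1)‖ ≤ _
    simp only [sel, ctr, dif_pos (show s < n by omega),
      dif_pos (show 0 < n by omega), dif_pos (show 1 < n by omega)]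
    have hn0 : (n : ℂ) ≠ 0 := Nat.cast_ne_zero.2 (by omega)
    have h2 := hpair n (Fin.castAdd n ⟨0, by omega⟩) (Fin.castAdd n ⟨1, by omega⟩) (by simp [Fin.lt_def])
    set ref := S.state (star (x (idx n (Fin.castAdd n ⟨0, (show 0 < n by omega)⟩))) *
      x (idx n (Fin.castAdd n ⟨1, (show 1 < n by omega)⟩))) with href
    rw [mul_smul_comm, map_smul, Finset.mul_sum, map_sum, smul_eq_mul,
      show ref = (n : ℂ)⁻¹ * ∑ _j : Fin n, ref by simp [hn0], ← mul_sub, ← sum_sub_distrib,
      norm_mul, norm_inv, Complex.norm_natCast, inv_mul_le_iff₀ (by exact_mod_cast (show 0 < n by omega))]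
    refine (norm_sum_le _ _).trans ((sum_le_sum (g := fun _ => (2 : ℝ) / ((n : ℝ) + 1))
      fun j _ => ?_).trans (by simp))
    have h1 := hpair n (Fin.castAdd n ⟨s, by omega⟩) (Fin.natAdd n j) (by simp [Fin.lt_def]; omega)
    refine (norm_sub_le_norm_sub_add_norm_sub _ (c n) _).trans ?_
    rw [norm_sub_rev (c n)]
    linarith [show (2 : ℝ) / ((n : ℝ) + 1) = 1 / ((n : ℝ) + 1) + 1 / ((n : ℝ) + 1) by ring]
  · set cc := S.limit.state (star (seqMk B atTop (Y 0)) * seqMk B atTop (Y 1)) with hcc
    have hY : Tendsto (fun n => S.state ((star (Y 0) * Y 1) n)) (hyperfilter ℕ) (𝓝 cc) := by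
      rw [hcc, ← map_star, ← map_mul]; exact S.tendsto_limit_state _
    rw [← map_star, ← map_mul]
    refine S.limit_state_eq ?_
    have hlim := (hY.add (continuous_star.continuousAt.tendsto.comp hY)).div_const 2
    have h0 : Tendsto (fun n => S.state ((star L * L) n) -
        (S.state ((star (Y 0) * Y 1) n) + star (S.state ((star (Y 0) * Y 1) n))) / 2)
        atTop (𝓝 0) := by
      refine squeeze_zero_norm' ?_ (Tendsto.div_atTop (a := (4 : ℝ)) tendsto_const_nhds
        tendsto_natCast_atTop_atTop)
      filter_upwards [eventually_ge_atTop 2] with n hn1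
      show ‖S.state (star (ctr n) * ctr n) - (S.state (star (sel n 0) * sel n 1) +
        star (S.state (star (sel n 0) * sel n 1))) / 2‖ ≤ _
      simp only [sel, ctr, dif_pos (show 0 < n by omega), dif_pos (show 1 < n by omega)]
      set ref := S.state (star (x (idx n (Fin.castAdd n ⟨0, (show 0 < n by omega)⟩))) *
        x (idx n (Fin.castAdd n ⟨1, (show 1 < n by omega)⟩))) with href
      set F : Fin n → Fin n → ℂ := fun i j =>
        S.state (star (x (idx n (Fin.natAdd n i))) * x (idx n (Fin.natAdd n j))) with hF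
      have hFs : ∀ i j, F j i = star (F i j) := fun i j => by
        simp only [hF]; rw [← S.state_star, star_mul, star_star]
      have href1 : ‖ref‖ ≤ 1 := (S.norm_state_le _).trans ((norm_mul_le _ _).trans (by
        rw [norm_star]; exact mul_le_one₀ (hn _) (norm_nonneg _) (hn _)))
      have hlt : ∀ i j, i < j → ‖F i j - ref‖ ≤ 2 / ((n : ℝ) + 1) := fun i j hij => by
        have h1 := hpair n (Fin.natAdd n i) (Fin.natAdd n j) (by rw [Fin.lt_def] at hij ⊢; simpa using hij)
        have h2 := hpair n (Fin.castAdd n ⟨0, by omega⟩) (Fin.castAdd n ⟨1, by omega⟩) (by simp [Fin.lt_def])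
        refine (norm_sub_le_norm_sub_add_norm_sub _ (c n) _).trans ?_
        rw [norm_sub_rev (c n)]
        linarith [show (2 : ℝ) / ((n : ℝ) + 1) = 1 / ((n : ℝ) + 1) + 1 / ((n : ℝ) + 1) by ring]
      have hterm : ∀ i j, ‖F i j + F j i - (ref + star ref)‖ ≤
          4 / (n : ℝ) + if i = j then (4 : ℝ) else 0 := by
        intro i j
        have hn' : (0 : ℝ) < n := by exact_mod_cast (show 0 < n by omega)
        have hmono : (2 : ℝ) / ((n : ℝ) + 1) ≤ 2 / n :=
          div_le_div_of_nonneg_left (by norm_num) hn' (by linarith)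
        have hoff : ∀ i j, i < j → ‖F i j + F j i - (ref + star ref)‖ ≤ 4 / (n : ℝ) := by
          intro i j hij
          rw [hFs i j, show F i j + star (F i j) - (ref + star ref) =
            (F i j - ref) + star (F i j - ref) by rw [star_sub]; ring]
          refine (norm_add_le _ _).trans ?_
          rw [norm_star]
          linarith [hlt i j hij, show (4 : ℝ) / n = 2 / n + 2 / n by ring]
        rcases lt_trichotomy i j with h | h | h
        · rw [if_neg h.ne, add_zero]; exact hoff i j h
        · subst h
          rw [if_pos rfl]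
          have hFi : ‖F i i‖ ≤ 1 := (S.norm_state_le _).trans ((norm_mul_le _ _).trans (by
            rw [norm_star]; exact mul_le_one₀ (hn _) (norm_nonneg _) (hn _)))
          refine (norm_sub_le _ _).trans ((add_le_add (norm_add_le _ _) (norm_add_le _ _)).trans ?_)
          rw [norm_star]
          have : (0 : ℝ) ≤ 4 / n := by positivity
          linarith
        · rw [if_neg h.ne', add_zero, add_comm (F i j)]; exact hoff j i h
      have e : S.state (star ((n : ℂ)⁻¹ • ∑ j : Fin n, x (idx n (Fin.natAdd n j))) *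
          ((n : ℂ)⁻¹ • ∑ j : Fin n, x (idx n (Fin.natAdd n j)))) - (ref + star ref) / 2 =
          (n : ℂ)⁻¹ * (n : ℂ)⁻¹ / 2 * ∑ i, ∑ j, (F i j + F j i - (ref + star ref)) := by
        have hn0 : (n : ℂ) ≠ 0 := Nat.cast_ne_zero.2 (by omega)
        simp only [star_smul, star_inv₀, star_natCast, star_sum, smul_mul_smul_comm, map_smul,
          smul_eq_mul, Finset.sum_mul_sum, map_sum, sum_sub_distrib, sum_add_distrib,
          sum_const, card_univ, Fintype.card_fin, nsmul_eq_mul]
        rw [sum_comm (f := fun i j => F j i)]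
        simp only [hF]
        field_simp
        ring
      rw [e, norm_mul, norm_div, norm_mul, norm_inv, Complex.norm_natCast, Complex.norm_two]
      refine (mul_le_mul_of_nonneg_left ((norm_sum_le _ _).trans (sum_le_sum fun i _ =>
        (norm_sum_le _ _).trans (sum_le_sum fun j _ => hterm i j))) (by positivity)).trans
        (le_of_eq ?_)
      have : (n : ℝ) ≠ 0 := Nat.cast_ne_zero.2 (by omega)
      simp only [sum_add_distrib, sum_const, card_univ, Fintype.card_fin, nsmul_eq_mul,
        sum_ite_eq, mem_univ, if_true]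
      field_simp
      ring
    simpa [Function.comp_def] using (h0.mono_left Nat.hyperfilter_le_atTop).add hlim
  · simp only [slotProd_seqMk]
    refine S.limit_state_congr (C := 2) ?_
    have hlarge : ∀ᶠ n in atTop, ∀ i, T i < n ∧ T' i < n := eventually_all.2 fun i =>
      (eventually_gt_atTop (T i)).and (eventually_gt_atTop (T' i))
    filter_upwards [hlarge] with n hTn
    have key : ∀ (T : Fin r → ℕ), StrictMono T → (∀ i, T i < n) →
        ‖S.state ((List.ofFn fun i => Y (T i) - L).prod n) - c' n ⟨r, Nat.lt_succ_of_le hr⟩‖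
          ≤ 1 / ((n : ℝ) + 1) := by
      intro T hT hlt
      have h := hpat n ⟨r, Nat.lt_succ_of_le hr⟩ _
        (strictMono_append (T := fun i => (⟨T i, hlt i⟩ : Fin n)) fun i j hij => hT hij)
      simpa [patternFun, listProd_ofFn_apply, Fin.append_left, Fin.append_right, Y, L, sel, ctr,
        hlt, Function.comp_def] using h
    refine (norm_sub_le_norm_sub_add_norm_sub _ (c' n ⟨r, Nat.lt_succ_of_le hr⟩) _).trans ?_
    rw [norm_sub_rev (c' n _)]
    linarith [key T hT fun i => (hTn i).1, key T' hT' fun i => (hTn i).2,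
      show (2 : ℝ) / ((n : ℝ) + 1) = 1 / ((n : ℝ) + 1) + 1 / ((n : ℝ) + 1) by ring]
  · rw [← map_star, ← map_mul]
    refine S.le_re_limit_state ?_
    filter_upwards [eventually_gt_atTop s] with n hn1
    show η ≤ (S.state (star (sel n s) * sel n s)).re
    simp only [sel, dif_pos hn1]
    exact hlow _

end Vale.Agent.P095
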