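import Vale.Agent.P095.Base
import Vale.Agent.P095.Defs
import Vale.Agent.P101.Drop.Bridge
import Vale.Agent.P101.Drop.Data

/-!
# P095: the dimension drop algebra in the central sequence algebra, equivariantly

`HasInvariantDimensionDrop A α` holds exactly when `Z_{2,3}` has a unital *-homomorphism into the
part of `A_∞ ∩ A'` fixed by the action.  One direction runs the homomorphism built from generators
inside the fixed subalgebra; the other evaluates on explicit generators of `Z_{2,3}`.
-/

noncomputable section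

namespace Vale.Agent.P095

open Filter Topology BoundedContinuousFunction Vale.Agent.P101

universe u v

set_option linter.unusedSimpArgs false

/-! ### Explicit generators of `Z_{2,3}` -/

/-- The square-zero generator before rotation. -/
def preY (t : ℝ) : Matrix Slot Slot ℂ :=
  (√(1 - t) : ℂ) • Matrix.single (0, 0) (0, 1) 1 + Matrix.single (1, 0) (2, 0) 1 +
    Matrix.single (1, 1) (2, 1) 1

/-- The second generator before rotation. -/
def preV (t : ℝ) : Matrix Slot Slot ℂ :=
  (√t : ℂ) • (Matrix.single (1, 0) (0, 0) 1 + Matrix.single (1, 1) (0, 1) 1)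

theorem preY_sq (t : ℝ) : preY t * preY t = 0 := by
  simp [preY, mul_add, add_mul]

theorem star_preY (t : ℝ) : star (preY t) =
    (√(1 - t) : ℂ) • Matrix.single (0, 1) (0, 0) 1 + Matrix.single (2, 0) (1, 0) 1 +
      Matrix.single (2, 1) (1, 1) 1 := by
  simp [preY, Matrix.star_eq_conjTranspose]

theorem star_preV (t : ℝ) : star (preV t) =
    (√t : ℂ) • (Matrix.single (0, 0) (1, 0) 1 + Matrix.single (0, 1) (1, 1) 1) := by
  simp [preV, Matrix.star_eq_conjTranspose]

theorem preV_sum {t : ℝ} (h0 : 0 ≤ t) (h1 : t ≤ 1) :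
    star (preV t) * preV t = 1 - star (preY t) * preY t - preY t * star (preY t) := by
  have e0 : (√t : ℂ) * √t = t := by rw [← Complex.ofReal_mul, Real.mul_self_sqrt h0]
  have e1 : (√(1 - t) : ℂ) * √(1 - t) = 1 - t := by
    rw [← Complex.ofReal_mul, Real.mul_self_sqrt (sub_nonneg.2 h1)]; push_cast; rfl
  rw [star_preV, star_preY]
  simp [preV, preY, mul_add, add_mul, smul_smul, e0, e1]
  ext p q
  fin_cases p <;> fin_cases q <;> simp [Matrix.single_apply, Matrix.one_apply]

theorem preY_keep (t : ℝ) : preY t * star (preY t) * preV t = preV t := by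
  rw [star_preY]
  simp [preV, preY, mul_add, add_mul]

/-- Conjugation by the path of unitaries. -/
def rotConj (t : ℝ) (a : Matrix Slot Slot ℂ) : Matrix Slot Slot ℂ := rot t * a * star (rot t)

theorem rotConj_mul (t : ℝ) (a b : Matrix Slot Slot ℂ) :
    rotConj t a * rotConj t b = rotConj t (a * b) := by
  simp only [rotConj]
  rw [show rot t * a * star (rot t) * (rot t * b * star (rot t)) =
    rot t * a * (star (rot t) * rot t) * b * star (rot t) by simp only [mul_assoc], rot_star_mul,
    mul_one, ← mul_assoc]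

theorem rotConj_star (t : ℝ) (a : Matrix Slot Slot ℂ) :
    star (rotConj t a) = rotConj t (star a) := by
  simp [rotConj, star_mul, mul_assoc]

theorem rotConj_one (t : ℝ) : rotConj t 1 = 1 := by
  rw [rotConj, mul_one]
  exact mul_eq_one_comm.1 (rot_star_mul t)

theorem rotConj_sub (t : ℝ) (a b : Matrix Slot Slot ℂ) :
    rotConj t (a - b) = rotConj t a - rotConj t b := by
  simp [rotConj, mul_sub, sub_mul]

theorem rot_zero : rot 0 = 1 + (-2 : ℂ) • antiP := by
  rw [rot, phase, P101.ramp01_eq_zero (by norm_num) (by norm_num), sub_zero, mul_one,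
    Complex.exp_pi_mul_I]
  norm_num

theorem rot_one : rot 1 = 1 := by
  rw [rot, phase, P101.ramp01_eq_one (by norm_num) (by norm_num)]
  simp

theorem rotConj_zero_apply (a : Matrix Slot Slot ℂ) (p q : Slot) :
    rotConj 0 a p q = a (slotFlip p) (slotFlip q) := by
  have hs : star (1 + (-2 : ℂ) • antiP) = 1 + (-2 : ℂ) • antiP := by
    rw [star_add, star_one, star_smul, antiP_star]
    norm_num
  rw [rotConj, rot_zero, hs, one_sub_two_antiP]

/-- The square-zero generator of `Z_{2,3}`. -/
def genY : dropAlg23 :=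
  ⟨{ toFun := fun t => rotConj t (preY t)
     continuous_toFun := by
       have : Continuous preY := by unfold preY; fun_prop
       exact ((continuous_rot.matrix_mul this).matrix_mul continuous_rot.star).comp
         continuous_subtype_val },
    ⟨Matrix.single 0 1 1, by
      ext p q
      show rotConj 0 (preY 0) p q = _
      rw [rotConj_zero_apply]
      fin_cases p <;> fin_cases q <;>
        simp [preY, slotFlip, Matrix.single_apply, Matrix.one_apply]⟩,
    ⟨Matrix.single 1 2 1, by
      ext p q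
      show rotConj 1 (preY 1) p q = _
      rw [rotConj, rot_one, star_one, one_mul, mul_one]
      fin_cases p <;> fin_cases q <;>
        simp [preY, Matrix.single_apply, Matrix.one_apply]⟩⟩

/-- The second generator of `Z_{2,3}`. -/
def genV : dropAlg23 :=
  ⟨{ toFun := fun t => rotConj t (preV t)
     continuous_toFun := by
       have : Continuous preV := by unfold preV; fun_prop
       exact ((continuous_rot.matrix_mul this).matrix_mul continuous_rot.star).comp
         continuous_subtype_val },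
    ⟨0, by
      show rotConj 0 (preV 0) = _
      simp [rotConj, preV]⟩,
    ⟨Matrix.single 1 0 1, by
      ext p q
      show rotConj 1 (preV 1) p q = _
      rw [rotConj, rot_one, star_one, one_mul, mul_one]
      fin_cases p <;> fin_cases q <;>
        simp [preV, Matrix.single_apply, Matrix.one_apply]⟩⟩

theorem genY_sq : genY * genY = 0 := by
  refine Subtype.ext (ContinuousMap.ext fun t => ?_)
  show rotConj t (preY t) * rotConj t (preY t) = 0
  rw [rotConj_mul, preY_sq, rotConj, mul_zero, zero_mul]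

theorem genV_sum : star genV * genV = 1 - star genY * genY - genY * star genY := by
  refine Subtype.ext (ContinuousMap.ext fun t => ?_)
  show star (rotConj t (preV t)) * rotConj t (preV t) =
    1 - star (rotConj t (preY t)) * rotConj t (preY t) -
      rotConj t (preY t) * star (rotConj t (preY t))
  simp only [rotConj_star, rotConj_mul]
  rw [preV_sum t.2.1 t.2.2, rotConj_sub, rotConj_sub, rotConj_one]

theorem genY_keep : genY * star genY * genV = genV := by
  refine Subtype.ext (ContinuousMap.ext fun t => ?_)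
  show rotConj t (preY t) * star (rotConj t (preY t)) * rotConj t (preV t) = rotConj t (preV t)
  simp only [rotConj_star, rotConj_mul]
  rw [preY_keep]

/-! ### Homomorphisms on representatives and into `A_∞` -/

section
variable {A : Type u} [CStarAlgebra A]

/-- A homomorphism on representatives as an actual homomorphism into `A_∞`. -/
theorem exists_seqHom_of_dropHom
    {φ : C(↥(Set.Icc (0 : ℝ) 1), Matrix Slot Slot ℂ) → ℕ → A} (hφ : IsCentralDropHom A φ) :
    ∃ Φ : dropAlg23 →⋆ₐ[ℂ] SeqQuot A atTop, ∀ f : dropAlg23,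
      ∃ r : ℕ →ᵇ A, ⇑r = φ f.1 ∧ seqMk A atTop r = Φ f ∧ Φ f ∈ centSub A atTop := by
  choose r hr hc using fun f : dropAlg23 => exists_rep_of_isCentralSeq (hφ.central f.1 f.2)
  have key : ∀ (f : dropAlg23) (s : ℕ →ᵇ A),
      Tendsto (fun n => ‖φ f.1 n - s n‖) atTop (𝓝 0) → seqMk A atTop (r f) = seqMk A atTop s :=
    fun f s h => seqMk_eq_iff.2 (by simpa only [hr] using h)
  have h1 : seqMk A atTop (r 1) = 1 := by
    rw [← map_one (seqMk A atTop)]
    exact key 1 1 (by simpa using hφ.map_one)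
  have hsmul : ∀ (c : ℂ) f, seqMk A atTop (r (c • f)) = c • seqMk A atTop (r f) := fun c f => by
    rw [← map_smul]
    exact key _ _ (by simpa [hr] using hφ.map_smul c f.1 f.2)
  refine ⟨{ toFun := fun f => seqMk A atTop (r f)
            map_one' := h1
            map_mul' := fun f g => by
              rw [← map_mul]
              exact key _ _ (by simpa [hr] using hφ.map_mul f.1 g.1 f.2 g.2)
            map_zero' := by simpa using hsmul 0 0
            map_add' := fun f g => by
              rw [← map_add]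
              exact key _ _ (by simpa [hr] using hφ.map_add f.1 g.1 f.2 g.2)
            commutes' := fun c => by
              simp [Algebra.algebraMap_eq_smul_one, hsmul, h1]
            map_star' := fun f => by
              rw [← map_star]
              exact key _ _ (by simpa [hr] using hφ.map_star f.1 f.2) },
    fun f => ⟨r f, hr f, rfl, hc f⟩⟩

/-- A homomorphism into `A_∞` with central values, written on representatives. -/
theorem exists_dropHom_of_seqHom (Φ : dropAlg23 →⋆ₐ[ℂ] SeqQuot A atTop)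
    (hΦ : ∀ f, Φ f ∈ centSub A atTop) :
    ∃ φ, IsCentralDropHom A φ ∧
      ∀ f : dropAlg23, ∃ r : ℕ →ᵇ A, ⇑r = φ f.1 ∧ seqMk A atTop r = Φ f := by
  choose r hr using fun f : dropAlg23 => seqMk_surjective (Φ f)
  classical
  obtain ⟨φ, hφ⟩ : ∃ φ : C(↥(Set.Icc (0 : ℝ) 1), Matrix Slot Slot ℂ) → ℕ → A,
      ∀ f : dropAlg23, φ f.1 = ⇑(r f) :=
    ⟨fun f => if hf : f ∈ dropAlg23 then ⇑(r ⟨f, hf⟩) else 0, fun f => dif_pos f.2⟩
  have key : ∀ (f : dropAlg23) (s : ℕ →ᵇ A), Φ f = seqMk A atTop s →
      Tendsto (fun n => ‖φ f.1 n - s n‖) atTop (𝓝 0) := fun f s h => by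
    simpa only [hφ] using seqMk_eq_iff.1 ((hr f).trans h)
  refine ⟨φ, ⟨fun f hf => ?_, ?_, fun f g hf hg => ?_, fun f g hf hg => ?_, fun c f hf => ?_,
    fun f hf => ?_⟩, fun f => ⟨r f, (hφ f).symm, hr f⟩⟩
  · rw [show f = ((⟨f, hf⟩ : dropAlg23) :) from rfl, hφ]
    exact isCentralSeq_coe (hr _ ▸ hΦ _)
  · exact key 1 1 (by simp)
  · simpa [hφ ⟨f, hf⟩, hφ ⟨g, hg⟩] using
      key (⟨f, hf⟩ + ⟨g, hg⟩) (r ⟨f, hf⟩ + r ⟨g, hg⟩) (by simp only [map_add, hr])
  · simpa [hφ ⟨f, hf⟩, hφ ⟨g, hg⟩] using
      key (⟨f, hf⟩ * ⟨g, hg⟩) (r ⟨f, hf⟩ * r ⟨g, hg⟩) (by simp only [map_mul, hr])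
  · simpa [hφ ⟨f, hf⟩] using key (c • ⟨f, hf⟩) (c • r ⟨f, hf⟩) (by simp only [map_smul, hr])
  · simpa [hφ ⟨f, hf⟩] using key (star ⟨f, hf⟩) (star (r ⟨f, hf⟩)) (by simp only [map_star, hr])

/-- The images of the generators satisfy the relations up to null sequences. -/
theorem gen_relations
    {φ : C(↥(Set.Icc (0 : ℝ) 1), Matrix Slot Slot ℂ) → ℕ → A} (hφ : IsCentralDropHom A φ) :
    Tendsto (fun n => ‖φ genY.1 n * φ genY.1 n‖) atTop (𝓝 0) ∧
      Tendsto (fun n => ‖star (φ genV.1 n) * φ genV.1 n -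
        (1 - star (φ genY.1 n) * φ genY.1 n - φ genY.1 n * star (φ genY.1 n))‖) atTop (𝓝 0) ∧
      Tendsto (fun n => ‖φ genY.1 n * star (φ genY.1 n) * φ genV.1 n - φ genV.1 n‖)
        atTop (𝓝 0) := by
  obtain ⟨Φ, hΦ⟩ := exists_seqHom_of_dropHom hφ
  obtain ⟨Y, hY, eY, -⟩ := hΦ genY
  obtain ⟨V, hV, eV, -⟩ := hΦ genV
  simp only [← hY, ← hV]
  refine ⟨?_, ?_, ?_⟩
  · refine (seqMk_eq_zero (f := Y * Y)).1 ?_
    rw [map_mul, eY, ← map_mul, genY_sq, map_zero]
  · refine (seqMk_eq_iff (f := star V * V) (g := 1 - star Y * Y - Y * star Y)).1 ?_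
    simp only [map_mul, map_star, map_sub, map_one, eY, eV]
    rw [← map_star Φ, ← map_star Φ, ← map_mul, ← map_mul, ← map_mul, ← map_one Φ, ← map_sub,
      ← map_sub, ← genV_sum]
  · refine (seqMk_eq_iff (f := Y * star Y * V) (g := V)).1 ?_
    simp only [map_mul, map_star, eY, eV]
    rw [← map_star Φ, ← map_mul, ← map_mul, genY_keep]

/-- A unital homomorphism from `Z_{2,3}` gives approximately central generators. -/
theorem hasCentralDimensionDrop_of_dropHom
    {φ : C(↥(Set.Icc (0 : ℝ) 1), Matrix Slot Slot ℂ) → ℕ → A} (hφ : IsCentralDropHom A φ) :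
    HasCentralDimensionDrop A :=
  ⟨φ genY.1, φ genV.1, hφ.central _ genY.2, hφ.central _ genV.2, gen_relations hφ⟩

end

/-! ### The invariant version -/

section
variable {A : Type u} [CStarAlgebra A] {G : Type v} [Group G]

/-- `φ` is a unital *-homomorphism from `Z_{2,3}` into the fixed algebra of `A_∞ ∩ A'`, written on
representatives. -/
structure IsInvariantDropHom (A : Type u) [CStarAlgebra A] (α : G →* (A ≃⋆ₐ[ℂ] A))
    (φ : C(↥(Set.Icc (0 : ℝ) 1), Matrix (Fin 3 × Fin 2) (Fin 3 × Fin 2) ℂ) → ℕ → A) : Prop where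
  central : IsCentralDropHom A φ
  invariant : ∀ g f, InDimDrop f → Tendsto (fun n => ‖α g (φ f n) - φ f n‖) atTop (𝓝 0)

/-- The central elements of `A_∞` fixed by the action. -/
def invSub (α : G →* (A ≃⋆ₐ[ℂ] A)) : StarSubalgebra ℂ (SeqQuot A (atTop : Filter ℕ)) :=
  centSub A atTop ⊓ fixSub fun g => seqAct atTop (α g).toStarAlgHom

instance invSub.isClosed (α : G →* (A ≃⋆ₐ[ℂ] A)) :
    IsClosed (invSub α : Set (SeqQuot A (atTop : Filter ℕ))) :=
  centSub.isClosed.inter (fixSub.isClosed _)

instance invSub.instCStarAlgebra (α : G →* (A ≃⋆ₐ[ℂ] A)) : CStarAlgebra (invSub α) :=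
  StarSubalgebra.cstarAlgebra _

theorem mem_invSub {α : G →* (A ≃⋆ₐ[ℂ] A)} {f : ℕ →ᵇ A} :
    seqMk A atTop f ∈ invSub α ↔ seqMk A atTop f ∈ centSub A atTop ∧
      ∀ g, Tendsto (fun n => ‖α g (f n) - f n‖) atTop (𝓝 0) := by
  refine and_congr Iff.rfl (mem_fixSub.trans (forall_congr' fun g => ?_))
  rw [seqAct_mk, seqMk_eq_iff]
  rfl

/-- Invariant generators give an invariant homomorphism. -/
theorem exists_invariantDropHom {α : G →* (A ≃⋆ₐ[ℂ] A)} (h : HasInvariantDimensionDrop A α) :
    ∃ φ, IsInvariantDropHom A α φ := by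
  obtain ⟨y, v, hy, hv, h1, h2, h3, hfix⟩ := h
  obtain ⟨Y, hYy, hYc⟩ := exists_rep_of_isCentralSeq hy
  obtain ⟨V, hVv, hVc⟩ := exists_rep_of_isCentralSeq hv
  subst hYy hVv
  have hYi : seqMk A atTop Y ∈ invSub α := mem_invSub.2 ⟨hYc, fun g => (hfix g).1⟩
  have hVi : seqMk A atTop V ∈ invSub α := mem_invSub.2 ⟨hVc, fun g => (hfix g).2⟩
  let _ : PartialOrder (invSub α) := CStarAlgebra.spectralOrder _
  have : StarOrderedRing (invSub α) := CStarAlgebra.spectralOrderedRing _
  obtain ⟨T, X, N, M, d⟩ := exists_dropData (B := invSub α) ⟨_, hYi⟩ ⟨_, hVi⟩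
    (Subtype.ext (by
      push_cast
      rw [← map_mul]
      exact seqMk_eq_zero.2 h1))
    (Subtype.ext (by
      push_cast
      simp only [← map_star, ← map_mul, ← map_one (seqMk A atTop), ← map_sub]
      exact seqMk_eq_iff.2 h2))
    (Subtype.ext (by
      push_cast
      exact seqMk_eq_iff.2 h3))
  obtain ⟨ψ⟩ := d.exists_hom
  obtain ⟨φ, hφ, hrep⟩ := exists_dropHom_of_seqHom
    ((invSub α).subtype.comp (ψ.comp (StarSubalgebra.inclusion dropAlg23_le)))
    fun f => (ψ (StarSubalgebra.inclusion dropAlg23_le f)).2.1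
  refine ⟨φ, hφ, fun g f hf => ?_⟩
  obtain ⟨r, hr, er⟩ := hrep ⟨f, hf⟩
  rw [← show ⇑r = φ f from hr]
  refine (mem_invSub.1 ?_).2 g
  rw [er]
  exact (ψ (StarSubalgebra.inclusion dropAlg23_le ⟨f, hf⟩)).2

/-- The generators and the homomorphism say the same. -/
theorem hasInvariantDimensionDrop_iff {α : G →* (A ≃⋆ₐ[ℂ] A)} :
    HasInvariantDimensionDrop A α ↔ ∃ φ, IsInvariantDropHom A α φ := by
  refine ⟨exists_invariantDropHom, fun ⟨φ, hφ⟩ => ?_⟩
  obtain ⟨h1, h2, h3⟩ := gen_relations hφ.central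
  exact ⟨φ genY.1, φ genV.1, hφ.central.central _ genY.2, hφ.central.central _ genV.2, h1, h2, h3,
    fun g => ⟨hφ.invariant g _ genY.2, hφ.invariant g _ genV.2⟩⟩

end

end Vale.Agent.P095
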