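import Vale.Agent.P095.Average

/-!
# P095: indiscernible slots
-/

noncomputable section

namespace Vale.Agent.P095

open Filter Topology Vale.Agent.P101

universe u v

variable {G : Type v} [Group G] [Fintype G] {B : Type u} [CStarAlgebra B]

/-- The product of the centred slots along a tuple. -/
def slotProd {r : ℕ} (y : ℕ → B) (l : B) (T : Fin r → ℕ) : B :=
  (List.ofFn fun i => y (T i) - l).prod

/-- Infinitely many slots with a centre `l`, indiscernible for the state. -/
structure Indisc (S : Setup G B) (R : ℕ) (η : ℝ) where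
  /-- The slots. -/
  y : ℕ → B
  /-- The centre. -/
  l : B
  norm_y : ∀ s, ‖y s‖ ≤ 1
  norm_l : ‖l‖ ≤ 1
  sq : ∀ s, y s * y s = 0
  comm_y : ∀ s t, s ≠ t → ∀ g h, StarCommute (S.act g (y s)) (S.act h (y t))
  comm_l : ∀ s g h, StarCommute (S.act g (y s)) (S.act h l)
  comm_ll : ∀ g h, StarCommute (S.act g l) (S.act h l)
  /-- The off-diagonal correlation. -/
  cc : ℂ
  pair : ∀ s t, s < t → S.state (star (y s) * y t) = cc
  pair_l : ∀ s, S.state (star (y s) * l) = cc
  pair_ll : S.state (star l * l) = (cc + star cc) / 2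
  const : ∀ r, r ≤ R → ∀ T T' : Fin r → ℕ, StrictMono T → StrictMono T' →
    S.state (slotProd y l T) = S.state (slotProd y l T')
  low : ∀ s, η ≤ (S.state (star (y s) * y s)).re

end Vale.Agent.P095
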