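import Vale.Agent.P095.Collapse
import Vale.Agent.P095.Extract

/-!
# P095: an invariant state and arbitrarily many slots are incompatible
-/

noncomputable section

namespace Vale.Agent.P095

open Filter Topology BoundedContinuousFunction Vale.Agent.P101 Finset

universe u v

variable {G : Type v} [Group G] [Fintype G] {B : Type u} [CStarAlgebra B] [PartialOrder B]
  [StarOrderedRing B]

/-- **Key theorem.** A finite group action with commuting translates of slots has no invariant
state that is multiplicative on `star a * a` for invariant `a`. -/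
theorem Setup.false_of_slots (S : Setup G B) {N : ℕ} {δ : ℝ} (hδ : 0 < δ)
    (h : ∀ m : ℕ, ∃ X : Fin m → Fin N → B, (∀ s, SqZeroFamily δ (X s)) ∧
      ∀ s t, s ≠ t → ∀ g h i j, StarCommute (S.act g (X s i)) (S.act h (X t j))) : False := by
  classical
  choose X hX hXc using h
  let sel : ℕ → Fin N → ℕ → B := fun s j n => if hs : s < n then X n ⟨s, hs⟩ j else 0
  have hsel : ∀ s j n, ‖sel s j n‖ ≤ 1 := fun s j n => by
    simp only [sel]; split_ifs with hs
    · exact (hX n _).norm_le j
    · simp
  let Y : ℕ → Fin N → (ℕ →ᵇ B) := fun s j => bseq (sel s j) 1 (hsel s j)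
  -- every slot carries mass in some direction
  have hmass : ∀ s : ℕ, ∃ j : Fin N,
      δ / ((N : ℝ) + 1) ≤ (S.limit.state (seqMk B atTop (star (Y s j) * Y s j))).re := by
    intro s
    by_contra hno
    push Not at hno
    have hsum : δ ≤ (S.limit.state (seqMk B atTop (∑ j, star (Y s j) * Y s j))).re := by
      refine S.le_re_limit_state ?_
      filter_upwards [eventually_gt_atTop s] with n hn
      have hb := S.re_state_mono (hX n ⟨s, hn⟩).bound
      rw [S.re_state_algebraMap] at hb
      simpa [BoundedContinuousFunction.coe_sum, Finset.sum_apply, Y, sel, hn] using hb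
    rw [map_sum, map_sum, Complex.re_sum] at hsum
    have hle := sum_le_sum (s := (univ : Finset (Fin N))) fun j _ => (hno j).le
    rw [sum_const, card_univ, Fintype.card_fin, nsmul_eq_mul] at hle
    have hlt : (N : ℝ) * (δ / ((N : ℝ) + 1)) < δ := by
      rw [← mul_div_assoc, div_lt_iff₀ (by positivity)]
      nlinarith
    linarith
  choose J hJ using hmass
  obtain ⟨j₀, hj₀⟩ := Finite.exists_infinite_fiber J
  rw [Set.infinite_coe_iff] at hj₀
  let e : ℕ → ℕ := fun k => Nat.nth (fun s => J s = j₀) k
  have hemono : StrictMono e := Nat.nth_strictMono hj₀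
  have hej : ∀ k, J (e k) = j₀ := fun k => Nat.nth_mem_of_infinite hj₀ k
  obtain ⟨I⟩ := exists_indisc S.limit (fun k => seqMk B atTop (Y (e k) j₀))
    (η := δ / ((N : ℝ) + 1))
    (fun k => (norm_seqMk_le _).trans
      ((BoundedContinuousFunction.norm_le zero_le_one).2 fun n => hsel _ _ n))
    (fun k => by
      rw [← map_mul]
      refine seqMk_eq_zero.2 ?_
      have : ∀ n, (Y (e k) j₀ * Y (e k) j₀) n = 0 := fun n => by
        show sel (e k) j₀ n * sel (e k) j₀ n = 0
        simp only [sel]; split_ifs with hs
        · exact (hX n _).sq j₀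
        · simp
      simp [this])
    (fun a b hab g k => by
      simp only [Setup.limit_act_mk]
      refine seqMk_starCommute fun n => ?_
      show StarCommute (S.act g (sel (e a) j₀ n)) (S.act k (sel (e b) j₀ n))
      simp only [sel]; split_ifs with ha hb
      · exact hXc n _ _ (fun he => hab (hemono.injective (by simpa [Fin.ext_iff] using he))) g k _ _
      all_goals simp only [map_zero]; constructor <;> simp)
    (fun k => by
      have := hJ (e k)
      rw [hej k, map_mul, map_star] at this
      exact this)
    (Fintype.card (G × G))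
  exact I.false_of_pos (by positivity)

end Vale.Agent.P095
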